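import Mathlib

set_option autoImplicit false
open MeasureTheory
open scoped ENNReal

namespace Crest.Agent.H0211

abbrev E3 := EuclideanSpace ℝ (Fin 3)
abbrev E2 := EuclideanSpace ℝ (Fin 2)

/-- Gram determinant of two vectors. -/
noncomputable def gram (a b : E3) : ℝ := ‖a‖ ^ 2 * ‖b‖ ^ 2 - inner ℝ a b ^ 2

/-- Affine image of a planar set. -/
def par (c a b : E3) (S : Set (ℝ × ℝ)) : Set E3 := {x | ∃ z ∈ S, x = c + z.1 • a + z.2 • b}

noncomputable def lin (a b : E3) : E2 →ₗ[ℝ] E3 where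
  toFun z := z 0 • a + z 1 • b
  map_add' x y := by simp [add_smul]; abel
  map_smul' r x := by simp [smul_add, mul_smul]

theorem normDet_lin (a b : E3) : (lin a b).normDet = Real.sqrt (gram a b) := by
  have h := (lin a b).normDet_sq_eq_det_gram (EuclideanSpace.basisFun (Fin 2) ℝ)
  have h0 := (lin a b).normDet_nonneg
  rw [Matrix.det_fin_two] at h
  simp only [Matrix.gram_apply, lin, LinearMap.coe_mk, AddHom.coe_mk] at h
  simp at h
  rw [← Real.sqrt_sq h0]
  congr 1
  simp only [lin, gram]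
  rw [h, real_inner_comm a b]
  ring

theorem vol_E2 (S : Set (ℝ × ℝ)) (hS : MeasurableSet S) :
    volume {z : E2 | (z 0, z 1) ∈ S} = volume S := by
  have h1 := (PiLp.volume_preserving_ofLp (Fin 2))
  have h2 := volume_preserving_finTwoArrow ℝ
  have h3 := h2.comp h1
  have := h3.measure_preimage hS.nullMeasurableSet
  rw [← this]
  congr 1

theorem area_par (c a b : E3) (S : Set (ℝ × ℝ)) (hS : MeasurableSet S) :
    μHE[2] (par c a b S) = ENNReal.ofReal (Real.sqrt (gram a b)) * volume S := by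
  have h := (lin a b).euclideanHausdorffMeasure_image_eq_normDet_mul_volume
    {z : E2 | (z 0, z 1) ∈ S}
  rw [finrank_euclideanSpace_fin, vol_E2 S hS, normDet_lin] at h
  rw [← h, ← (isometry_add_left c).euclideanHausdorffMeasure_image (lin a b '' _)]
  congr 1
  ext x
  constructor
  · rintro ⟨z, hz, rfl⟩
    refine ⟨_, ⟨!₂[z.1, z.2], by simpa using hz, rfl⟩, ?_⟩
    simp [lin, add_assoc]
  · rintro ⟨_, ⟨z, hz, rfl⟩, rfl⟩
    exact ⟨(z 0, z 1), hz, by simp [lin, add_assoc]⟩

/-- The standard triangle. -/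
def T0 : Set (ℝ × ℝ) := {z | 0 ≤ z.1 ∧ 0 ≤ z.2 ∧ z.1 + z.2 ≤ 1}
/-- The standard triangle without its bottom side. -/
def T1 : Set (ℝ × ℝ) := {z | 0 ≤ z.1 ∧ 0 < z.2 ∧ z.1 + z.2 ≤ 1}
/-- The unit square. -/
def Q0 : Set (ℝ × ℝ) := Set.Icc (0 : ℝ) 1 ×ˢ Set.Icc (0 : ℝ) 1

theorem T0_closed : IsClosed T0 := by
  unfold T0
  refine (isClosed_le continuous_const continuous_fst).inter
    ((isClosed_le continuous_const continuous_snd).inter
      (isClosed_le (continuous_fst.add continuous_snd) continuous_const))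

theorem T0_meas : MeasurableSet T0 := T0_closed.measurableSet

theorem T1_meas : MeasurableSet T1 := by
  unfold T1
  refine (measurableSet_le measurable_const measurable_fst).inter
    ((measurableSet_lt measurable_const measurable_snd).inter
      (measurableSet_le (measurable_fst.add measurable_snd) measurable_const))

theorem Q0_meas : MeasurableSet Q0 := measurableSet_Icc.prod measurableSet_Icc

theorem vol_Q0 : volume Q0 = 1 := by
  unfold Q0
  rw [Measure.volume_eq_prod, Measure.prod_prod]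
  simp

theorem lint_aux : ∫⁻ x in Set.Icc (0 : ℝ) 1, ENNReal.ofReal (1 - x) = ENNReal.ofReal (1 / 2) := by
  rw [← ofReal_integral_eq_lintegral_ofReal]
  · congr 1
    rw [integral_Icc_eq_integral_Ioc, ← intervalIntegral.integral_of_le zero_le_one]
    rw [intervalIntegral.integral_sub (by simp) (by simp)]
    simp
    norm_num
  · exact (by fun_prop : Continuous fun x : ℝ => 1 - x).integrableOn_Icc
  · filter_upwards [ae_restrict_mem measurableSet_Icc] with x hx
    simp only [Pi.zero_apply]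
    linarith [hx.2]

theorem vol_T0 : volume T0 = ENNReal.ofReal (1 / 2) := by
  rw [Measure.volume_eq_prod, Measure.prod_apply T0_meas, ← lint_aux,
    ← lintegral_indicator measurableSet_Icc]
  congr 1
  ext x
  by_cases hx : x ∈ Set.Icc (0 : ℝ) 1
  · rw [Set.indicator_of_mem hx]
    have : Prod.mk x ⁻¹' T0 = Set.Icc 0 (1 - x) := by
      ext y
      simp only [T0, Set.mem_preimage, Set.mem_ofPred_eq, Set.mem_Icc]
      constructor
      · rintro ⟨_, h2, h3⟩; exact ⟨h2, by linarith⟩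
      · rintro ⟨h2, h3⟩; exact ⟨hx.1, h2, by linarith⟩
    rw [this]; simp
  · rw [Set.indicator_of_notMem hx]
    have : Prod.mk x ⁻¹' T0 = ∅ := by
      ext y
      simp only [T0, Set.mem_preimage, Set.mem_ofPred_eq, Set.mem_empty_iff_false, iff_false]
      rintro ⟨h1, h2, h3⟩
      exact hx ⟨h1, by linarith⟩
    rw [this]; simp

theorem vol_T1 : volume T1 = ENNReal.ofReal (1 / 2) := by
  rw [Measure.volume_eq_prod, Measure.prod_apply T1_meas, ← lint_aux,
    ← lintegral_indicator measurableSet_Icc]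
  congr 1
  ext x
  by_cases hx : x ∈ Set.Icc (0 : ℝ) 1
  · rw [Set.indicator_of_mem hx]
    have : Prod.mk x ⁻¹' T1 = Set.Ioc 0 (1 - x) := by
      ext y
      simp only [T1, Set.mem_preimage, Set.mem_ofPred_eq, Set.mem_Ioc]
      constructor
      · rintro ⟨_, h2, h3⟩; exact ⟨h2, by linarith⟩
      · rintro ⟨h2, h3⟩; exact ⟨hx.1, h2, by linarith⟩
    rw [this]; simp
  · rw [Set.indicator_of_notMem hx]
    have : Prod.mk x ⁻¹' T1 = ∅ := by
      ext y
      simp only [T1, Set.mem_preimage, Set.mem_ofPred_eq, Set.mem_empty_iff_false, iff_false]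
      rintro ⟨h1, h2, h3⟩
      exact hx ⟨h1, by linarith⟩
    rw [this]; simp

theorem hull_eq_par (p q r : E3) :
    convexHull ℝ ({p, q, r} : Set E3) = par p (q - p) (r - p) T0 := by
  apply Set.Subset.antisymm
  · apply convexHull_min
    · intro x hx
      simp only [Set.mem_insert_iff, Set.mem_singleton_iff] at hx
      rcases hx with rfl | rfl | rfl
      · exact ⟨(0, 0), by simp [T0], by simp⟩
      · exact ⟨(1, 0), by simp [T0], by simp⟩
      · exact ⟨(0, 1), by simp [T0], by simp⟩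
    · rintro _ ⟨z, hz, rfl⟩ _ ⟨z', hz', rfl⟩ s t hs ht hst
      refine ⟨(s * z.1 + t * z'.1, s * z.2 + t * z'.2), ⟨?_, ?_, ?_⟩, ?_⟩
      · exact add_nonneg (mul_nonneg hs hz.1) (mul_nonneg ht hz'.1)
      · exact add_nonneg (mul_nonneg hs hz.2.1) (mul_nonneg ht hz'.2.1)
      · have h1 := mul_le_mul_of_nonneg_left hz.2.2 hs
        have h2 := mul_le_mul_of_nonneg_left hz'.2.2 ht
        show s * z.1 + t * z'.1 + (s * z.2 + t * z'.2) ≤ 1
        nlinarith
      · have : t = 1 - s := by linarith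
        subst this
        ext i
        simp
        ring
  · rintro _ ⟨z, hz, rfl⟩
    have hc := convex_convexHull ℝ ({p, q, r} : Set E3)
    have hp : p ∈ convexHull ℝ ({p, q, r} : Set E3) := subset_convexHull _ _ (by simp)
    have hq : q ∈ convexHull ℝ ({p, q, r} : Set E3) := subset_convexHull _ _ (by simp)
    have hr : r ∈ convexHull ℝ ({p, q, r} : Set E3) := subset_convexHull _ _ (by simp)
    have := hc.sum_mem (t := Finset.univ) (w := ![1 - z.1 - z.2, z.1, z.2]) (z := ![p, q, r])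
      (by
        intro i _
        fin_cases i
        · simp; linarith [hz.2.2]
        · simpa using hz.1
        · simpa using hz.2.1)
      (by simp [Fin.sum_univ_three]; ring)
      (by
        intro i _
        fin_cases i
        · simpa using hp
        · simpa using hq
        · simpa using hr)
    convert this using 1
    simp only [Fin.sum_univ_three]
    ext i
    simp
    ring

theorem gram_nonneg (a b : E3) : 0 ≤ gram a b := by
  have := abs_real_inner_le_norm a b
  have h2 : inner ℝ a b ^ 2 ≤ (‖a‖ * ‖b‖) ^ 2 := by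
    rw [← sq_abs]
    exact pow_le_pow_left₀ (abs_nonneg _) this 2
  unfold gram
  nlinarith

theorem area_hull (p q r : E3) :
    μHE[2] (convexHull ℝ ({p, q, r} : Set E3)) =
      ENNReal.ofReal (Real.sqrt (gram (q - p) (r - p)) / 2) := by
  rw [hull_eq_par, area_par _ _ _ _ T0_meas, vol_T0, ← ENNReal.ofReal_mul (Real.sqrt_nonneg _)]
  congr 1; ring

theorem area_T1 (p a b : E3) :
    μHE[2] (par p a b T1) = ENNReal.ofReal (Real.sqrt (gram a b) / 2) := by
  rw [area_par _ _ _ _ T1_meas, vol_T1, ← ENNReal.ofReal_mul (Real.sqrt_nonneg _)]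
  congr 1; ring

theorem area_T0 (p a b : E3) :
    μHE[2] (par p a b T0) = ENNReal.ofReal (Real.sqrt (gram a b) / 2) := by
  rw [area_par _ _ _ _ T0_meas, vol_T0, ← ENNReal.ofReal_mul (Real.sqrt_nonneg _)]
  congr 1; ring

/-- The parallelogram of the statements. -/
def pgram (c a b : E3) : Set E3 :=
  {x | ∃ s ∈ Set.Icc (0 : ℝ) 1, ∃ t ∈ Set.Icc (0 : ℝ) 1, x = c + s • a + t • b}

theorem pgram_eq (c a b : E3) : pgram c a b = par c a b Q0 := by
  ext x
  constructor
  · rintro ⟨s, hs, t, ht, rfl⟩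
    exact ⟨(s, t), ⟨hs, ht⟩, rfl⟩
  · rintro ⟨z, hz, rfl⟩
    exact ⟨z.1, hz.1, z.2, hz.2, rfl⟩

theorem area_pgram (c a b : E3) :
    μHE[2] (pgram c a b) = ENNReal.ofReal (Real.sqrt (gram a b)) := by
  rw [pgram_eq, area_par _ _ _ _ Q0_meas, vol_Q0, mul_one]

/-- Determinant of three vectors. -/
def det3 (a b d : E3) : ℝ :=
  a 0 * (b 1 * d 2 - b 2 * d 1) - a 1 * (b 0 * d 2 - b 2 * d 0) + a 2 * (b 0 * d 1 - b 1 * d 0)

theorem inner3 (a b : E3) : inner ℝ a b = a 0 * b 0 + a 1 * b 1 + a 2 * b 2 := by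
  simp [PiLp.inner_apply, Fin.sum_univ_three]; ring

theorem normsq3 (a : E3) : ‖a‖ ^ 2 = a 0 ^ 2 + a 1 ^ 2 + a 2 ^ 2 := by
  rw [← real_inner_self_eq_norm_sq, inner3]; ring

/-- Projection along `d` onto `d^⊥`. -/
noncomputable def prj (d y : E3) : E3 := y - (inner ℝ y d / ‖d‖ ^ 2) • d

theorem prj_sub (d x y : E3) : prj d x - prj d y = prj d (x - y) := by
  unfold prj
  rw [inner_sub_left, sub_div, sub_smul]; abel

theorem prj_add (d x y : E3) : prj d (x + y) = prj d x + prj d y := by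
  unfold prj
  rw [inner_add_left, add_div, add_smul]; abel

theorem prj_smul (d x : E3) (c : ℝ) : prj d (c • x) = c • prj d x := by
  unfold prj
  rw [real_inner_smul_left, smul_sub, smul_smul, mul_div_assoc]

theorem prj_self (d : E3) : prj d d = 0 := by
  unfold prj
  by_cases hd : d = 0
  · simp [hd]
  · rw [real_inner_self_eq_norm_sq, div_self (by simpa using hd)]; simp

theorem inner_prj (d y : E3) : inner ℝ (prj d y) d = 0 := by
  unfold prj
  by_cases hd : d = 0
  · simp [hd]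
  · rw [inner_sub_left, real_inner_smul_left, real_inner_self_eq_norm_sq]
    have : ‖d‖ ^ 2 ≠ 0 := by simpa using hd
    field_simp
    ring

theorem prj_unit (v y : E3) (hv : ‖v‖ = 1) : prj v y = y - inner ℝ y v • v := by
  simp [prj, hv]

theorem gram_prj (d a b : E3) (hd : d ≠ 0) :
    gram (prj d a) (prj d b) = det3 a b d ^ 2 / ‖d‖ ^ 2 := by
  have hn : ‖d‖ ^ 2 ≠ 0 := by simpa using hd
  have h1 : ∀ x y : E3, inner ℝ (prj d x) (prj d y) =
      inner ℝ x y - inner ℝ x d * inner ℝ y d / ‖d‖ ^ 2 := by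
    intro x y
    unfold prj
    simp only [inner_sub_left, inner_sub_right, real_inner_smul_left, real_inner_smul_right,
      real_inner_self_eq_norm_sq, real_inner_comm y d]
    field_simp
    ring
  unfold gram
  rw [← real_inner_self_eq_norm_sq (prj d a), ← real_inner_self_eq_norm_sq (prj d b), h1, h1, h1]
  have h2 := normsq3 d
  simp only [inner3, det3]
  field_simp
  rw [h2]
  ring

theorem sqrt_gram_prj (d a b : E3) (hd : d ≠ 0) :
    Real.sqrt (gram (prj d a) (prj d b)) = |det3 a b d| / ‖d‖ := by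
  rw [gram_prj d a b hd, ← div_pow, Real.sqrt_sq_eq_abs, abs_div, abs_norm]

theorem prj_par (d c a b : E3) (S : Set (ℝ × ℝ)) :
    prj d '' par c a b S = par (prj d c) (prj d a) (prj d b) S := by
  ext x
  constructor
  · rintro ⟨_, ⟨z, hz, rfl⟩, rfl⟩
    exact ⟨z, hz, by rw [prj_add, prj_add, prj_smul, prj_smul]⟩
  · rintro ⟨z, hz, rfl⟩
    exact ⟨_, ⟨z, hz, rfl⟩, by rw [prj_add, prj_add, prj_smul, prj_smul]⟩

theorem det3_sq_perp (a b d e : E3) (he : ‖e‖ = 1) (ha : inner ℝ a e = 0) (hb : inner ℝ b e = 0) :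
    det3 a b d ^ 2 = gram a b * inner ℝ e d ^ 2 := by
  have h1 := normsq3 e
  rw [he] at h1
  unfold gram
  rw [normsq3, normsq3]
  rw [inner3] at ha hb ⊢
  rw [inner3]
  unfold det3
  set n0 := a 1 * b 2 - a 2 * b 1
  set n1 := a 2 * b 0 - a 0 * b 2
  set n2 := a 0 * b 1 - a 1 * b 0
  -- n × e = 0
  have c0 : n1 * e 2 - n2 * e 1 = 0 := by
    simp only [n1, n2]; linear_combination (b 0) * ha - (a 0) * hb
  have c1 : n2 * e 0 - n0 * e 2 = 0 := by
    simp only [n0, n2]; linear_combination (b 1) * ha - (a 1) * hb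
  have c2 : n0 * e 1 - n1 * e 0 = 0 := by
    simp only [n0, n1]; linear_combination (b 2) * ha - (a 2) * hb
  set k := n0 * e 0 + n1 * e 1 + n2 * e 2
  have e0 : n0 = k * e 0 := by
    simp only [k]; linear_combination n0 * h1 + e 1 * c2 - e 2 * c1
  have e1 : n1 = k * e 1 := by
    simp only [k]; linear_combination n1 * h1 - e 0 * c2 + e 2 * c0
  have e2 : n2 = k * e 2 := by
    simp only [k]; linear_combination n2 * h1 + e 0 * c1 - e 1 * c0
  have l1 : a 0 * (b 1 * d 2 - b 2 * d 1) - a 1 * (b 0 * d 2 - b 2 * d 0) +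
      a 2 * (b 0 * d 1 - b 1 * d 0) = n0 * d 0 + n1 * d 1 + n2 * d 2 := by
    simp only [n0, n1, n2]; ring
  have l2 : (a 0 ^ 2 + a 1 ^ 2 + a 2 ^ 2) * (b 0 ^ 2 + b 1 ^ 2 + b 2 ^ 2) -
      (a 0 * b 0 + a 1 * b 1 + a 2 * b 2) ^ 2 = n0 ^ 2 + n1 ^ 2 + n2 ^ 2 := by
    simp only [n0, n1, n2]; ring
  rw [l1, l2, e0, e1, e2]
  linear_combination (k ^ 2 * (e 0 * d 0 + e 1 * d 1 + e 2 * d 2) ^ 2) * h1

end Crest.Agent.H0211
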