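import Mathlib

set_option autoImplicit false

namespace Crest.Agent.H0211

/-- Height of the wedge with mid-slope `m`. -/
noncomputable def RR (ε m : ℝ) : ℝ := 1 / 2 + ε ^ 2 * (m ^ 2 + m ^ 4) / 4 + 5 * ε ^ 3

theorem abs_mul_le_of {a b A B : ℝ} (ha : |a| ≤ A) (hb : |b| ≤ B) : |a * b| ≤ A * B := by
  rw [abs_mul]
  exact mul_le_mul ha hb (abs_nonneg _) ((abs_nonneg _).trans ha)

theorem cover_ineq (ε Δ t τ x y s : ℝ) (hε : 0 < ε) (hε1 : ε ≤ 1 / 2000) (hΔ : 0 < Δ)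
    (hΔε : Δ ≤ ε ^ 2) (ht0 : -1 ≤ t) (ht1 : t + Δ ≤ 1) (hτ0 : -1 ≤ τ) (hτ1 : τ + Δ ≤ 1)
    (hx : |x| ≤ 1 - s) (hy : |y| ≤ s)
    (h1 : t * (s - x * ε * (t + Δ / 2)) ≤ y - x * ε * ((1 + t * (t + Δ)) / 2))
    (h2 : y - x * ε * ((1 + t * (t + Δ)) / 2) ≤ (t + Δ) * (s - x * ε * (t + Δ / 2)))
    (h3 : τ * (1 - s + y * ε * (τ + Δ / 2)) ≤ x + y * ε * ((1 + τ * (τ + Δ)) / 2))
    (h4 : x + y * ε * ((1 + τ * (τ + Δ)) / 2) ≤ (τ + Δ) * (1 - s + y * ε * (τ + Δ / 2))) :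
    s - x * ε * (t + Δ / 2) ≤ RR ε (t + Δ / 2) ∨
      1 - s + y * ε * (τ + Δ / 2) ≤ RR ε (τ + Δ / 2) := by
  by_contra hcon
  push Not at hcon
  obtain ⟨c1, c2⟩ := hcon
  set m := t + Δ / 2 with hm
  set μ := τ + Δ / 2 with hμ
  set g := (1 + t * (t + Δ)) / 2 with hg
  set γ := (1 + τ * (τ + Δ)) / 2 with hγ
  have hm1 : |m| ≤ 1 := by rw [abs_le]; constructor <;> linarith
  have hμ1 : |μ| ≤ 1 := by rw [abs_le]; constructor <;> linarith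
  have hg' : g = (1 + m ^ 2) / 2 - Δ ^ 2 / 8 := by rw [hg, hm]; ring
  have hγ' : γ = (1 + μ ^ 2) / 2 - Δ ^ 2 / 8 := by rw [hγ, hμ]; ring
  clear_value m μ g γ
  have hm2 : m ^ 2 ≤ 1 := (sq_le_one_iff_abs_le_one m).mpr hm1
  have hμ2 : μ ^ 2 ≤ 1 := (sq_le_one_iff_abs_le_one μ).mpr hμ1
  have hε2 : ε ^ 2 ≤ ε / 2000 := by clear * - hε hε1; nlinarith
  have hΔ1 : Δ ^ 2 ≤ 1 := pow_le_one₀ hΔ.le (by linarith)
  have hg1 : |g| ≤ 1 := by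
    rw [abs_le, hg']; constructor <;> linarith [sq_nonneg m, sq_nonneg Δ]
  have hγ1 : |γ| ≤ 1 := by
    rw [abs_le, hγ']; constructor <;> linarith [sq_nonneg μ, sq_nonneg Δ]
  have hgle : g ≤ (1 + m ^ 2) / 2 := by rw [hg']; linarith [sq_nonneg Δ]
  have hγle : γ ≤ (1 + μ ^ 2) / 2 := by rw [hγ']; linarith [sq_nonneg Δ]
  obtain ⟨u, hu⟩ : ∃ u, u = s - x * ε * m - 1 / 2 := ⟨_, rfl⟩
  obtain ⟨U, hU⟩ : ∃ U, U = 1 - s + y * ε * μ - 1 / 2 := ⟨_, rfl⟩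
  obtain ⟨e1, he1⟩ : ∃ e, e = y - x * ε * g - m * (u + 1 / 2) := ⟨_, rfl⟩
  obtain ⟨e2, he2⟩ : ∃ e, e = x + y * ε * γ - μ * (U + 1 / 2) := ⟨_, rfl⟩
  have hs' : s - x * ε * m = u + 1 / 2 := by linarith
  have hS' : 1 - s + y * ε * μ = U + 1 / 2 := by linarith
  rw [hs'] at h1 h2 c1
  rw [hS'] at h3 h4 c2
  unfold RR at c1 c2
  have hQ1 : 0 ≤ ε ^ 2 * (m ^ 2 + m ^ 4) / 4 := by positivity
  have hQ2 : 0 ≤ ε ^ 2 * (μ ^ 2 + μ ^ 4) / 4 := by positivity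
  have hε3 : 0 < ε ^ 3 := by positivity
  have hu0 : 0 < u := by linarith
  have hU0 : 0 < U := by linarith
  have hx1 : |x| ≤ 1 := by linarith [abs_nonneg y]
  have hy1 : |y| ≤ 1 := by linarith [abs_nonneg x]
  have hW : u + U = ε * (y * μ - x * m) := by rw [hu, hU]; ring
  have hWε : u + U ≤ ε := by
    have a1 := abs_mul_le_of (le_refl |y|) hμ1
    have a2 := abs_mul_le_of (le_refl |x|) hm1
    have a3 : y * μ - x * m ≤ 1 := by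
      linarith [le_abs_self (y * μ), neg_abs_le (x * m)]
    rw [hW]
    have := mul_le_mul_of_nonneg_left a3 hε.le
    linarith
  have he1b : |e1| ≤ Δ / 2 * (u + 1 / 2) := by
    have t1 : t = m - Δ / 2 := by linarith
    have t2 : t + Δ = m + Δ / 2 := by linarith
    rw [t2] at h2
    rw [t1] at h1
    rw [abs_le, he1]; constructor <;> linarith
  have he2b : |e2| ≤ Δ / 2 * (U + 1 / 2) := by
    have t1 : τ = μ - Δ / 2 := by linarith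
    have t2 : τ + Δ = μ + Δ / 2 := by linarith
    rw [t2] at h4
    rw [t1] at h3
    rw [abs_le, he2]; constructor <;> linarith
  have he1c : |e1| ≤ ε ^ 2 / 2 := by
    have : Δ / 2 * (u + 1 / 2) ≤ Δ / 2 * 1 :=
      mul_le_mul_of_nonneg_left (by linarith) (by linarith)
    linarith
  have he2c : |e2| ≤ ε ^ 2 / 2 := by
    have : Δ / 2 * (U + 1 / 2) ≤ Δ / 2 * 1 :=
      mul_le_mul_of_nonneg_left (by linarith) (by linarith)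
    linarith
  -- x is close to μ/2 and y to m/2
  have hxμ : |x - μ / 2| ≤ 3 * ε := by
    have e : x - μ / 2 = μ * U + e2 - y * γ * ε := by rw [he2]; ring
    have a1 := abs_mul_le_of hμ1 (le_of_eq (abs_of_pos hU0))
    have a2 := abs_mul_le_of (abs_mul_le_of hy1 hγ1) (le_of_eq (abs_of_pos hε))
    rw [e, abs_le]
    rw [abs_le] at a1 a2 he2c
    constructor <;> linarith
  have hym : |y - m / 2| ≤ 3 * ε := by
    have e : y - m / 2 = m * u + e1 + x * g * ε := by rw [he1]; ring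
    have a1 := abs_mul_le_of hm1 (le_of_eq (abs_of_pos hu0))
    have a2 := abs_mul_le_of (abs_mul_le_of hx1 hg1) (le_of_eq (abs_of_pos hε))
    rw [e, abs_le]
    rw [abs_le] at a1 a2 he1c
    constructor <;> linarith
  have key : y * μ - x * m = m * μ * (u - U) + e1 * μ - e2 * m +
      ε * (g * μ ^ 2 / 2 + γ * m ^ 2 / 2 + (x - μ / 2) * (g * μ) + (y - m / 2) * (γ * m)) := by
    rw [he1, he2]; ring
  have b1 : m * μ * (u - U) ≤ u + U := by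
    have a1 := abs_mul_le_of hm1 hμ1
    have a2 : |u - U| ≤ u + U := by rw [abs_le]; constructor <;> linarith
    have a3 := abs_mul_le_of a1 a2
    linarith [le_abs_self (m * μ * (u - U))]
  have b2 : e1 * μ ≤ ε ^ 2 / 2 := by
    have := abs_mul_le_of he1c hμ1
    linarith [le_abs_self (e1 * μ)]
  have b3 : -(e2 * m) ≤ ε ^ 2 / 2 := by
    have := abs_mul_le_of he2c hm1
    linarith [neg_abs_le (e2 * m)]
  have b4 : (x - μ / 2) * (g * μ) ≤ 3 * ε := by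
    have := abs_mul_le_of hxμ (abs_mul_le_of hg1 hμ1)
    linarith [le_abs_self ((x - μ / 2) * (g * μ))]
  have b5 : (y - m / 2) * (γ * m) ≤ 3 * ε := by
    have := abs_mul_le_of hym (abs_mul_le_of hγ1 hm1)
    linarith [le_abs_self ((y - m / 2) * (γ * m))]
  have b6 : g * μ ^ 2 / 2 + γ * m ^ 2 / 2 ≤ (m ^ 2 + m ^ 4 + μ ^ 2 + μ ^ 4) / 4 := by
    have a1 := mul_le_mul_of_nonneg_right hgle (sq_nonneg μ)
    have a2 := mul_le_mul_of_nonneg_right hγle (sq_nonneg m)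
    linarith [sq_nonneg (m ^ 2 - μ ^ 2)]
  obtain ⟨Q, hQ⟩ : ∃ Q, Q = (m ^ 2 + m ^ 4 + μ ^ 2 + μ ^ 4) / 4 := ⟨_, rfl⟩
  have hQ1 : Q ≤ 1 := by
    have a1 : (m ^ 2) ^ 2 ≤ 1 := pow_le_one₀ (sq_nonneg m) hm2
    have a2 : (μ ^ 2) ^ 2 ≤ 1 := pow_le_one₀ (sq_nonneg μ) hμ2
    rw [hQ]; linarith
  rw [← hQ] at b6
  have b7 : y * μ - x * m ≤ (u + U) + ε ^ 2 + ε * (Q + 6 * ε) := by
    rw [key]
    have : ε * (g * μ ^ 2 / 2 + γ * m ^ 2 / 2 + (x - μ / 2) * (g * μ) + (y - m / 2) * (γ * m)) ≤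
      ε * (Q + 6 * ε) := mul_le_mul_of_nonneg_left (by linarith) hε.le
    linarith
  have b8 : u + U ≤ ε * ((u + U) + ε ^ 2 + ε * (Q + 6 * ε)) := by
    rw [hW] at b7 ⊢
    exact mul_le_mul_of_nonneg_left b7 hε.le
  have b9 : ε ^ 2 * Q + 10 * ε ^ 3 < u + U := by rw [hQ]; linarith
  obtain ⟨W, hW'⟩ : ∃ W, W = u + U := ⟨_, rfl⟩
  rw [← hW'] at b8 b9
  have b10 : (ε ^ 2 * Q + 10 * ε ^ 3) * (1 - ε) < W * (1 - ε) :=
    mul_lt_mul_of_pos_right b9 (by linarith)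
  have b11 : ε ^ 3 * Q ≤ ε ^ 3 * 1 := mul_le_mul_of_nonneg_left hQ1 hε3.le
  have b12 : ε ^ 3 * ε ≤ ε ^ 3 * (1 / 2000) := mul_le_mul_of_nonneg_left hε1 hε3.le
  linarith

theorem inv_sqrt_le (z : ℝ) (hz : 0 ≤ z) (hz1 : z ≤ 1) :
    1 / Real.sqrt (1 + z) ≤ 1 - z / 2 + z ^ 2 / 2 := by
  have hpos : 0 < 1 - z / 2 + z ^ 2 / 2 := by nlinarith
  rw [div_le_iff₀ (by positivity), mul_comm, ← div_le_iff₀ hpos]
  apply Real.le_sqrt_of_sq_le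
  rw [div_pow, div_le_iff₀ (by positivity)]
  have h1 : z ^ 4 ≤ z ^ 2 := by nlinarith [mul_nonneg hz hz, mul_le_mul hz1 hz1 hz zero_le_one]
  nlinarith [pow_nonneg hz 3, pow_nonneg hz 5]

/-- The telescoping potential. -/
noncomputable def Psi (ε t : ℝ) : ℝ :=
  t / 8 + ε ^ 2 / 8 * (7 * t ^ 5 / 40 - t ^ 3 / 12 - t / 8) + 4 * ε ^ 3 * t

/-- Normalised area of one wedge. -/
noncomputable def wedgeA (ε Δ t : ℝ) : ℝ :=
  Δ * RR ε (t + Δ / 2) ^ 2 /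
    (2 * Real.sqrt (1 + ε ^ 2 * (((1 + t * (t + Δ)) / 2) ^ 2 + 2 * (t + Δ / 2) ^ 2)))

theorem RR_pos (ε m : ℝ) (hε : 0 < ε) : 0 < RR ε m := by unfold RR; positivity

theorem wedgeA_pos (ε Δ t : ℝ) (hε : 0 < ε) (hΔ : 0 < Δ) : 0 < wedgeA ε Δ t := by
  have := RR_pos ε (t + Δ / 2) hε
  unfold wedgeA; positivity

theorem wedgeA_le (ε Δ t : ℝ) (hε : 0 < ε) (hε1 : ε ≤ 1 / 2000) (hΔ : 0 < Δ)
    (hΔε : Δ ≤ ε ^ 2) (ht0 : -1 ≤ t) (ht1 : t + Δ ≤ 1) :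
    wedgeA ε Δ t ≤ Psi ε (t + Δ) - Psi ε t := by
  obtain ⟨m, hm⟩ : ∃ m, m = t + Δ / 2 := ⟨_, rfl⟩
  have ht : t = m - Δ / 2 := by linarith
  have hm2 : m ^ 2 ≤ 1 := by
    rw [sq_le_one_iff_abs_le_one, abs_le]; constructor <;> linarith
  have hm4 : m ^ 4 ≤ 1 := by
    have a1 : (m ^ 2) ^ 2 ≤ 1 := pow_le_one₀ (sq_nonneg m) hm2
    linarith
  have hm2' := sq_nonneg m
  have hm4' : 0 ≤ m ^ 4 := by positivity
  have hε2' : 0 < ε ^ 2 := by positivity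
  have hε3' : 0 < ε ^ 3 := by positivity
  have hε4' : 0 < ε ^ 4 := by positivity
  have hε2 : ε ^ 2 ≤ ε / 2000 := by linarith [mul_le_mul_of_nonneg_left hε1 hε.le]
  have hε3 : ε ^ 3 ≤ ε ^ 2 / 2000 := by linarith [mul_le_mul_of_nonneg_left hε1 hε2'.le]
  have hε4 : ε ^ 4 ≤ ε ^ 3 / 2000 := by linarith [mul_le_mul_of_nonneg_left hε1 hε3'.le]
  have hΔ2 : Δ ^ 2 ≤ ε / 2000 := by
    have : Δ * Δ ≤ Δ * 1 := mul_le_mul_of_nonneg_left (by linarith) hΔ.le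
    linarith
  have hΔ2' := sq_nonneg Δ
  obtain ⟨G, hG⟩ : ∃ G, G = ((1 + t * (t + Δ)) / 2) ^ 2 + 2 * (t + Δ / 2) ^ 2 := ⟨_, rfl⟩
  have hG' : G = ((1 + m ^ 2) / 2 - Δ ^ 2 / 8) ^ 2 + 2 * m ^ 2 := by rw [hG, hm]; ring
  have hG0 : 0 ≤ G := by rw [hG]; positivity
  have hG3 : G ≤ 3 := by
    have : ((1 + m ^ 2) / 2 - Δ ^ 2 / 8) ^ 2 ≤ 1 := pow_le_one₀ (by linarith) (by linarith)
    rw [hG']; linarith
  have hGl : (1 + m ^ 2) ^ 2 / 4 + 2 * m ^ 2 - ε ≤ G := by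
    have : m ^ 2 * Δ ^ 2 ≤ 1 * Δ ^ 2 := mul_le_mul_of_nonneg_right hm2 hΔ2'
    rw [hG']; linarith [sq_nonneg (Δ ^ 2)]
  have hz0 : ε ^ 2 * G ≤ ε ^ 2 * 3 := mul_le_mul_of_nonneg_left hG3 hε2'.le
  have hz := inv_sqrt_le (ε ^ 2 * G) (by positivity) (by linarith)
  have hz2 : (ε ^ 2 * G) ^ 2 / 2 ≤ ε ^ 3 / 100 := by
    have : (ε ^ 2 * G) ^ 2 ≤ (ε ^ 2 * 3) ^ 2 := pow_le_pow_left₀ (by positivity) hz0 2
    linarith
  have hz3 : 1 / Real.sqrt (1 + ε ^ 2 * G) ≤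
      1 - ε ^ 2 * ((1 + m ^ 2) ^ 2 / 8 + m ^ 2) + ε ^ 3 := by
    have := mul_le_mul_of_nonneg_left hGl (sq_nonneg ε)
    linarith
  have hmm : ε ^ 2 * (m ^ 2 + m ^ 4) ≤ ε ^ 2 * 2 :=
    mul_le_mul_of_nonneg_left (by linarith) hε2'.le
  obtain ⟨a, ha⟩ : ∃ a, a = ε ^ 2 * (m ^ 2 + m ^ 4) / 4 + 5 * ε ^ 3 := ⟨_, rfl⟩
  have ha0 : 0 ≤ a := by rw [ha]; positivity
  have ha1 : a ≤ ε ^ 2 := by rw [ha]; linarith
  have hR : RR ε m ^ 2 ≤ 1 / 4 + ε ^ 2 * (m ^ 2 + m ^ 4) / 4 + 51 / 10 * ε ^ 3 := by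
    have : RR ε m = 1 / 2 + a := by rw [ha, RR]; ring
    rw [this]
    have : a ^ 2 ≤ (ε ^ 2) ^ 2 := pow_le_pow_left₀ ha0 ha1 2
    linarith
  obtain ⟨b, hb⟩ : ∃ b, b = ε ^ 2 * (m ^ 2 + m ^ 4) / 4 + 51 / 10 * ε ^ 3 := ⟨_, rfl⟩
  obtain ⟨c, hc⟩ : ∃ c, c = ε ^ 2 * ((1 + m ^ 2) ^ 2 / 8 + m ^ 2) := ⟨_, rfl⟩
  have hb0 : 0 ≤ b := by rw [hb]; positivity
  have hb1 : b ≤ 1 / 4 := by rw [hb]; linarith
  have hc0 : 0 ≤ c := by rw [hc]; positivity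
  have hprod : RR ε m ^ 2 * (1 / Real.sqrt (1 + ε ^ 2 * G)) ≤ (1 / 4 + b) * (1 - c + ε ^ 3) := by
    apply mul_le_mul _ _ (by positivity) (by positivity)
    · rw [hb]; linarith
    · rw [hc]; linarith
  have hprod2 : (1 / 4 + b) * (1 - c + ε ^ 3) ≤ 1 / 4 + b - c / 4 + ε ^ 3 / 2 := by
    linarith [mul_nonneg hb0 hc0, mul_le_mul_of_nonneg_right hb1 hε3'.le]
  have e1 : wedgeA ε Δ t = Δ / 2 * (RR ε m ^ 2 * (1 / Real.sqrt (1 + ε ^ 2 * G))) := by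
    rw [wedgeA, ← hG, ← hm]; ring
  have e2 : Psi ε (t + Δ) - Psi ε t = Δ / 2 * (1 / 4 + ε ^ 2 / 4 * (7 * m ^ 4 / 8 - m ^ 2 / 4 - 1 / 8
      + Δ ^ 2 * (21 * m ^ 2 / 2 - 1 / 2) / 24 + 7 * Δ ^ 4 / 640) + 8 * ε ^ 3) := by
    rw [ht]; unfold Psi; ring
  rw [e1, e2]
  apply mul_le_mul_of_nonneg_left _ (by positivity)
  refine hprod.trans (hprod2.trans ?_)
  rw [hb, hc]
  have : ε ^ 2 * Δ ^ 2 ≤ ε ^ 2 * ε := mul_le_mul_of_nonneg_left (by linarith) hε2'.le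
  linarith [mul_nonneg (sq_nonneg ε) (mul_nonneg (sq_nonneg Δ) (sq_nonneg m)),
    mul_nonneg (sq_nonneg ε) (pow_nonneg hΔ.le 4)]

theorem wedgeA_sum (ε : ℝ) (n : ℕ) (hε : 0 < ε) (hε1 : ε ≤ 1 / 2000) (hn : 0 < n)
    (hnε : 2 / (n : ℝ) ≤ ε ^ 2) :
    ∑ i : Fin n, wedgeA ε (2 / n) (-1 + i * (2 / n)) ≤ (1 / 2 - 13 / 6000 * ε ^ 2) / 2 := by
  have hn' : (0 : ℝ) < n := by exact_mod_cast hn
  have hΔ : (0 : ℝ) < 2 / n := by positivity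
  have h1 : ∑ i : Fin n, wedgeA ε (2 / n) (-1 + i * (2 / n)) ≤
      ∑ i ∈ Finset.range n, (Psi ε (-1 + ((i + 1 : ℕ) : ℝ) * (2 / n)) -
        Psi ε (-1 + (i : ℝ) * (2 / n))) := by
    rw [← Fin.sum_univ_eq_sum_range (fun i => (Psi ε (-1 + ((i + 1 : ℕ) : ℝ) * (2 / n)) -
        Psi ε (-1 + (i : ℝ) * (2 / n))))]
    apply Finset.sum_le_sum
    intro i _
    have hi : ((i : ℕ) : ℝ) + 1 ≤ n := by exact_mod_cast i.2
    have h := wedgeA_le ε (2 / n) (-1 + i * (2 / n)) hε hε1 hΔ hnε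
      (by have : (0 : ℝ) ≤ i * (2 / n) := by positivity
          linarith)
      (by have : ((i : ℕ) + 1 : ℝ) * (2 / n) ≤ n * (2 / n) :=
            mul_le_mul_of_nonneg_right hi hΔ.le
          have e : (n : ℝ) * (2 / n) = 2 := by field_simp
          linarith)
    have e : -1 + ((i + 1 : ℕ) : ℝ) * (2 / n) = -1 + i * (2 / n) + 2 / n := by push_cast; ring
    rw [e]
    exact h
  rw [Finset.sum_range_sub (fun i => Psi ε (-1 + (i : ℝ) * (2 / n)))] at h1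
  have e : (n : ℝ) * (2 / n) = 2 := by field_simp
  rw [e] at h1
  refine h1.trans ?_
  unfold Psi
  have hε3 : ε ^ 3 ≤ ε ^ 2 / 2000 := by nlinarith
  norm_num
  nlinarith [sq_nonneg ε]

theorem disc_ivt (f : ℕ → ℝ) (n : ℕ) (hn : 0 < n) (h0 : 0 ≤ f 0) (h1 : f n ≤ 0) :
    ∃ i : Fin n, 0 ≤ f i ∧ f (i + 1) ≤ 0 := by
  by_contra hcon
  push Not at hcon
  have : ∀ k, k < n → 0 < f (k + 1) := by
    intro k
    induction k with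
    | zero => intro hk; exact hcon ⟨0, hk⟩ h0
    | succ k ih => intro hk; exact hcon ⟨k + 1, hk⟩ (ih (by omega)).le
  have h2 := this (n - 1) (by omega)
  rw [Nat.sub_add_cancel hn] at h2
  linarith

end Crest.Agent.H0211
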