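import Crest.Agent.H0211.Proj
import Crest.Agent.H0211.Ineq

set_option autoImplicit false
open MeasureTheory
open scoped ENNReal

namespace Crest.Agent.H0211

/-- The cylinder over a triangle. -/
def cylT (p q r u : E3) : Set E3 :=
  {x | ∃ b ∈ convexHull ℝ ({p, q, r} : Set E3), ∃ t : ℝ, x = b + t • u}

theorem mem_cylT_obl (P Q R d x : E3) (hd : d ≠ 0) (α β τ : ℝ) (hα : 0 ≤ α) (hβ : 0 ≤ β)
    (hαβ : α + β ≤ 1) (hx : x = P + α • (Q - P) + β • (R - P) + τ • d) :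
    x ∈ cylT (prj d P) (prj d Q) (prj d R) (unt d) := by
  obtain ⟨σ, hσ⟩ := obl d hd (P + α • (Q - P) + β • (R - P)) τ
  refine ⟨_, ?_, σ, hx.trans hσ⟩
  rw [← prj_hull]
  refine Set.mem_image_of_mem _ ?_
  rw [hull_eq_par]
  exact ⟨(α, β), ⟨hα, hβ, hαβ⟩, rfl⟩

theorem wedge_coords (t Δ H s y : ℝ) (hΔ : 0 < Δ) (hH : 0 < H) (h1 : t * s ≤ y)
    (h2 : y ≤ (t + Δ) * s) (h3 : s ≤ H) :
    ∃ α β : ℝ, 0 ≤ α ∧ 0 ≤ β ∧ α + β ≤ 1 ∧ s = (α + β) * H ∧ y = α * H * t + β * H * (t + Δ) := by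
  refine ⟨((t + Δ) * s - y) / (Δ * H), (y - t * s) / (Δ * H),
    div_nonneg (by linarith) (by positivity), div_nonneg (by linarith) (by positivity), ?_, ?_, ?_⟩
  · rw [← add_div, div_le_one (by positivity)]
    nlinarith
  · field_simp; ring
  · field_simp; ring

noncomputable def dL (ε Δ t : ℝ) : E3 :=
  !₂[1, ε * ((1 + t * (t + Δ)) / 2), Real.sqrt 2 * ε * (t + Δ / 2)]
noncomputable def dU (ε Δ t : ℝ) : E3 :=
  !₂[ε * ((1 + t * (t + Δ)) / 2), -1, -(Real.sqrt 2 * ε * (t + Δ / 2))]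
noncomputable def vL (H t : ℝ) : E3 := !₂[0, H * t, Real.sqrt 2 * H]
noncomputable def vU (H t : ℝ) : E3 := !₂[H * t, 0, Real.sqrt 2 * (1 - H)]

theorem dL_ne (ε Δ t : ℝ) : dL ε Δ t ≠ 0 := by
  intro h
  have := congrFun (congrArg WithLp.ofLp h) 0
  simp [dL] at this

theorem dU_ne (ε Δ t : ℝ) : dU ε Δ t ≠ 0 := by
  intro h
  have := congrFun (congrArg WithLp.ofLp h) 1
  simp [dU] at this

theorem norm_dL (ε Δ t : ℝ) : ‖dL ε Δ t‖ =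
    Real.sqrt (1 + ε ^ 2 * (((1 + t * (t + Δ)) / 2) ^ 2 + 2 * (t + Δ / 2) ^ 2)) := by
  have hr2 : Real.sqrt 2 ^ 2 = 2 := Real.sq_sqrt (by norm_num)
  rw [← Real.sqrt_sq (norm_nonneg _), normsq3]
  congr 1
  simp only [dL, Matrix.cons_val]
  linear_combination (ε ^ 2 * (t + Δ / 2) ^ 2) * hr2

theorem norm_dU (ε Δ t : ℝ) : ‖dU ε Δ t‖ =
    Real.sqrt (1 + ε ^ 2 * (((1 + t * (t + Δ)) / 2) ^ 2 + 2 * (t + Δ / 2) ^ 2)) := by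
  have hr2 : Real.sqrt 2 ^ 2 = 2 := Real.sq_sqrt (by norm_num)
  rw [← Real.sqrt_sq (norm_nonneg _), normsq3]
  congr 1
  simp only [dU, Matrix.cons_val]
  linear_combination (ε ^ 2 * (t + Δ / 2) ^ 2) * hr2

theorem area_L (ε Δ t κ : ℝ) (hΔ : 0 < Δ) :
    (μHE[2] (convexHull ℝ ({prj (dL ε Δ t) (vL 0 0),
      prj (dL ε Δ t) (vL (κ * RR ε (t + Δ / 2)) t),
      prj (dL ε Δ t) (vL (κ * RR ε (t + Δ / 2)) (t + Δ))} : Set E3))).toReal =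
      Real.sqrt 2 * κ ^ 2 * wedgeA ε Δ t := by
  rw [area_prj_hull _ _ _ _ (dL_ne _ _ _), norm_dL, wedgeA]
  generalize RR ε (t + Δ / 2) = R
  have : det3 (vL (κ * R) t - vL 0 0) (vL (κ * R) (t + Δ) - vL 0 0) (dL ε Δ t) =
      -(Real.sqrt 2 * κ ^ 2 * Δ * R ^ 2) := by
    simp only [det3, vL, dL, PiLp.sub_apply, Matrix.cons_val]; ring
  rw [this, abs_neg, abs_of_nonneg (by positivity)]
  ring

theorem area_U (ε Δ t κ : ℝ) (hΔ : 0 < Δ) :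
    (μHE[2] (convexHull ℝ ({prj (dU ε Δ t) (vU 0 0),
      prj (dU ε Δ t) (vU (κ * RR ε (t + Δ / 2)) t),
      prj (dU ε Δ t) (vU (κ * RR ε (t + Δ / 2)) (t + Δ))} : Set E3))).toReal =
      Real.sqrt 2 * κ ^ 2 * wedgeA ε Δ t := by
  rw [area_prj_hull _ _ _ _ (dU_ne _ _ _), norm_dU, wedgeA]
  generalize RR ε (t + Δ / 2) = R
  have : det3 (vU (κ * R) t - vU 0 0) (vU (κ * R) (t + Δ) - vU 0 0) (dU ε Δ t) =
      (Real.sqrt 2 * κ ^ 2 * Δ * R ^ 2) := by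
    simp only [det3, vU, dU, PiLp.sub_apply, Matrix.cons_val]; ring
  rw [this, abs_of_nonneg (by positivity)]
  ring

theorem mem_L (ε Δ t H : ℝ) (hΔ : 0 < Δ) (hH : 0 < H) (X : E3) (s : ℝ)
    (hs : X 2 = Real.sqrt 2 * s)
    (h1 : t * (s - X 0 * ε * (t + Δ / 2)) ≤ X 1 - X 0 * ε * ((1 + t * (t + Δ)) / 2))
    (h2 : X 1 - X 0 * ε * ((1 + t * (t + Δ)) / 2) ≤ (t + Δ) * (s - X 0 * ε * (t + Δ / 2)))
    (h3 : s - X 0 * ε * (t + Δ / 2) ≤ H) :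
    X ∈ cylT (prj (dL ε Δ t) (vL 0 0)) (prj (dL ε Δ t) (vL H t))
      (prj (dL ε Δ t) (vL H (t + Δ))) (unt (dL ε Δ t)) := by
  obtain ⟨α, β, hα, hβ, hαβ, e1, e2⟩ := wedge_coords t Δ H _ _ hΔ hH h1 h2 h3
  refine mem_cylT_obl _ _ _ _ _ (dL_ne _ _ _) α β (X 0) hα hβ hαβ ?_
  ext i
  fin_cases i
  · simp [vL, dL]
  · simp [vL, dL]; linear_combination e2
  · simp [vL, dL]; linear_combination hs + Real.sqrt 2 * e1

theorem mem_U (ε Δ t H : ℝ) (hΔ : 0 < Δ) (hH : 0 < H) (X : E3) (s : ℝ)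
    (hs : X 2 = Real.sqrt 2 * s)
    (h1 : t * (1 - s + X 1 * ε * (t + Δ / 2)) ≤ X 0 + X 1 * ε * ((1 + t * (t + Δ)) / 2))
    (h2 : X 0 + X 1 * ε * ((1 + t * (t + Δ)) / 2) ≤ (t + Δ) * (1 - s + X 1 * ε * (t + Δ / 2)))
    (h3 : 1 - s + X 1 * ε * (t + Δ / 2) ≤ H) :
    X ∈ cylT (prj (dU ε Δ t) (vU 0 0)) (prj (dU ε Δ t) (vU H t))
      (prj (dU ε Δ t) (vU H (t + Δ))) (unt (dU ε Δ t)) := by
  obtain ⟨α, β, hα, hβ, hαβ, e1, e2⟩ := wedge_coords t Δ H _ _ hΔ hH h1 h2 h3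
  refine mem_cylT_obl _ _ _ _ _ (dU_ne _ _ _) α β (-X 1) hα hβ hαβ ?_
  ext i
  fin_cases i
  · simp [vU, dU]; linear_combination e2
  · simp [vU, dU]
  · simp [vU, dU]; linear_combination hs - Real.sqrt 2 * e1

theorem pick_wedge (ε x y s : ℝ) (n : ℕ) (hn : 0 < n) (hy : |y| ≤ s) :
    ∃ i : Fin n, ∀ t Δ : ℝ, t = -1 + i * (2 / n) → Δ = 2 / n →
      t * (s - x * ε * (t + Δ / 2)) ≤ y - x * ε * ((1 + t * (t + Δ)) / 2) ∧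
      y - x * ε * ((1 + t * (t + Δ)) / 2) ≤ (t + Δ) * (s - x * ε * (t + Δ / 2)) := by
  have hn' : (0 : ℝ) < n := by exact_mod_cast hn
  rw [abs_le] at hy
  obtain ⟨i, h1, h2⟩ := disc_ivt (fun k => y - (-1 + k * (2 / n)) * s -
    x * ε * (1 - (-1 + k * (2 / n)) ^ 2) / 2) n hn (by simp; linarith)
    (by have e : (n : ℝ) * (2 / n) = 2 := by field_simp
        simp only [e]; linarith)
  refine ⟨i, fun t Δ ht hΔ => ?_⟩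
  have e : -1 + ((i + 1 : ℕ) : ℝ) * (2 / n) = t + Δ := by rw [ht, hΔ]; push_cast; ring
  simp only [e] at h2
  rw [← ht] at h1
  constructor <;> linarith

/-- The explicit cover of the tetrahedron by `2 n` triangular cylinders of prescribed area. -/
theorem cover_sum (ε : ℝ) (n : ℕ) (hε : 0 < ε) (hε1 : ε ≤ 1 / 2000) (hn : 0 < n)
    (hnε : 2 / (n : ℝ) ≤ ε ^ 2) :
    ∃ u p q r : Fin n ⊕ Fin n → E3, (∀ i, ‖u i‖ = 1) ∧
      (∀ i, inner ℝ (p i) (u i) = 0 ∧ inner ℝ (q i) (u i) = 0 ∧ inner ℝ (r i) (u i) = 0) ∧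
      K0 ⊆ ⋃ i, cylT (p i) (q i) (r i) (u i) ∧
      ∑ i, (μHE[2] (convexHull ℝ ({p i, q i, r i} : Set E3))).toReal =
        Real.sqrt 2 * (1 / 2 - 13 / 6000 * ε ^ 2) := by
  have hn' : (0 : ℝ) < n := by exact_mod_cast hn
  obtain ⟨Δ, hΔ⟩ : ∃ Δ : ℝ, Δ = 2 / n := ⟨_, rfl⟩
  have hΔ0 : 0 < Δ := by rw [hΔ]; positivity
  obtain ⟨t, ht⟩ : ∃ t : Fin n → ℝ, ∀ i, t i = -1 + i * (2 / n) := ⟨_, fun _ => rfl⟩
  have ht0 : ∀ i, -1 ≤ t i := fun i => by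
    have : (0 : ℝ) ≤ i * (2 / n) := by positivity
    rw [ht]; linarith
  have ht1 : ∀ i, t i + Δ ≤ 1 := fun i => by
    have hi : ((i : ℕ) : ℝ) + 1 ≤ n := by exact_mod_cast i.2
    have : ((i : ℕ) + 1 : ℝ) * (2 / n) ≤ n * (2 / n) :=
      mul_le_mul_of_nonneg_right hi (by positivity)
    have e : (n : ℝ) * (2 / n) = 2 := by field_simp
    rw [ht, hΔ]; linarith
  have hsum := wedgeA_sum ε n hε hε1 hn hnε
  simp only [← ht] at hsum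
  rw [← hΔ] at hsum hnε
  obtain ⟨A, hA⟩ : ∃ A, A = ∑ i, wedgeA ε Δ (t i) := ⟨_, rfl⟩
  rw [← hA] at hsum
  have hA0 : 0 < A := by
    rw [hA]
    have : Nonempty (Fin n) := ⟨⟨0, hn⟩⟩
    exact Finset.sum_pos (fun i _ => wedgeA_pos _ _ _ hε hΔ0) Finset.univ_nonempty
  obtain ⟨κ, hκ⟩ : ∃ κ, κ = Real.sqrt ((1 / 2 - 13 / 6000 * ε ^ 2) / 2 / A) := ⟨_, rfl⟩
  have hq : 1 ≤ (1 / 2 - 13 / 6000 * ε ^ 2) / 2 / A := by rwa [one_le_div hA0]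
  have hκ1 : 1 ≤ κ := by rw [hκ]; exact Real.one_le_sqrt.mpr hq
  have hκ2 : κ ^ 2 = (1 / 2 - 13 / 6000 * ε ^ 2) / 2 / A := by
    rw [hκ, Real.sq_sqrt (by linarith)]
  refine ⟨Sum.elim (fun i => unt (dL ε Δ (t i))) (fun i => unt (dU ε Δ (t i))),
    Sum.elim (fun i => prj (dL ε Δ (t i)) (vL 0 0)) (fun i => prj (dU ε Δ (t i)) (vU 0 0)),
    Sum.elim (fun i => prj (dL ε Δ (t i)) (vL (κ * RR ε (t i + Δ / 2)) (t i)))
      (fun i => prj (dU ε Δ (t i)) (vU (κ * RR ε (t i + Δ / 2)) (t i))),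
    Sum.elim (fun i => prj (dL ε Δ (t i)) (vL (κ * RR ε (t i + Δ / 2)) (t i + Δ)))
      (fun i => prj (dU ε Δ (t i)) (vU (κ * RR ε (t i + Δ / 2)) (t i + Δ))), ?_, ?_, ?_, ?_⟩
  · rintro (i | i)
    · exact norm_unt _ (dL_ne _ _ _)
    · exact norm_unt _ (dU_ne _ _ _)
  · rintro (i | i) <;> exact ⟨inner_prj_unt _ _, inner_prj_unt _ _, inner_prj_unt _ _⟩
  · intro X hX
    obtain ⟨hx, hy⟩ := mem_K0 hX
    obtain ⟨s, hs⟩ : ∃ s, s = X 2 / Real.sqrt 2 := ⟨_, rfl⟩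
    have hs' : X 2 = Real.sqrt 2 * s := by rw [hs]; field_simp
    rw [← hs] at hx hy
    obtain ⟨i, hi⟩ := pick_wedge ε (X 0) (X 1) s n hn hy
    obtain ⟨j, hj⟩ := pick_wedge ε (-X 1) (X 0) (1 - s) n hn hx
    obtain ⟨h1, h2⟩ := hi (t i) Δ (ht i) hΔ
    obtain ⟨h3, h4⟩ := hj (t j) Δ (ht j) hΔ
    have h3' : t j * (1 - s + X 1 * ε * (t j + Δ / 2)) ≤
      X 0 + X 1 * ε * ((1 + t j * (t j + Δ)) / 2) := by linarith
    have h4' : X 0 + X 1 * ε * ((1 + t j * (t j + Δ)) / 2) ≤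
      (t j + Δ) * (1 - s + X 1 * ε * (t j + Δ / 2)) := by linarith
    have hR : ∀ m, RR ε m ≤ κ * RR ε m := fun m =>
      le_mul_of_one_le_left (RR_pos ε m hε).le hκ1
    rcases cover_ineq ε Δ (t i) (t j) (X 0) (X 1) s hε hε1 hΔ0 hnε (ht0 i) (ht1 i) (ht0 j) (ht1 j)
      hx hy h1 h2 h3' h4' with h | h
    · exact Set.mem_iUnion.mpr ⟨Sum.inl i, mem_L ε Δ (t i) _ hΔ0
        ((RR_pos ε _ hε).trans_le (hR _)) X s hs' h1 h2 (h.trans (hR _))⟩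
    · exact Set.mem_iUnion.mpr ⟨Sum.inr j, mem_U ε Δ (t j) _ hΔ0
        ((RR_pos ε _ hε).trans_le (hR _)) X s hs' h3' h4' (h.trans (hR _))⟩
  · rw [Fintype.sum_sum_type]
    simp only [Sum.elim_inl, Sum.elim_inr, area_L _ _ _ _ hΔ0, area_U _ _ _ _ hΔ0]
    rw [← Finset.mul_sum, ← hA, hκ2]
    field_simp
    ring

theorem cover_fin (ε : ℝ) (hε : 0 < ε) (hε1 : ε ≤ 1 / 2000) :
    ∃ u p q r : Fin (2 * ⌈2 / ε ^ 2⌉₊) → E3, (∀ i, ‖u i‖ = 1) ∧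
      (∀ i, inner ℝ (p i) (u i) = 0 ∧ inner ℝ (q i) (u i) = 0 ∧ inner ℝ (r i) (u i) = 0) ∧
      K0 ⊆ ⋃ i, cylT (p i) (q i) (r i) (u i) ∧
      ∑ i, (μHE[2] (convexHull ℝ ({p i, q i, r i} : Set E3))).toReal =
        Real.sqrt 2 * (1 / 2 - 13 / 6000 * ε ^ 2) := by
  set n := ⌈2 / ε ^ 2⌉₊ with hn
  have hn0 : 0 < n := Nat.ceil_pos.mpr (by positivity)
  have hn' : (0 : ℝ) < n := by exact_mod_cast hn0
  have hnε : 2 / (n : ℝ) ≤ ε ^ 2 := by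
    have := Nat.le_ceil (2 / ε ^ 2)
    rw [← hn, div_le_iff₀ (by positivity)] at this
    rw [div_le_iff₀ hn']
    linarith
  obtain ⟨u, p, q, r, h1, h2, h3, h4⟩ := cover_sum ε n hε hε1 hn0 hnε
  let e : Fin (2 * n) ≃ Fin n ⊕ Fin n := (finCongr (two_mul n)).trans finSumFinEquiv.symm
  refine ⟨u ∘ e, p ∘ e, q ∘ e, r ∘ e, fun i => h1 _, fun i => h2 _, ?_, ?_⟩
  · intro X hX
    obtain ⟨i, hi⟩ := Set.mem_iUnion.mp (h3 hX)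
    exact Set.mem_iUnion.mpr ⟨e.symm i, by simpa using hi⟩
  · rw [← h4]
    exact e.sum_comp (fun i => (μHE[2] (convexHull ℝ ({p i, q i, r i} : Set E3))).toReal)

end Crest.Agent.H0211
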