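import Crest.Agent.H0211.Area

set_option autoImplicit false
open MeasureTheory
open scoped ENNReal

namespace Crest.Agent.H0211

/-- Unit vector in the direction `d`. -/
noncomputable def unt (d : E3) : E3 := ‖d‖⁻¹ • d

theorem norm_unt (d : E3) (hd : d ≠ 0) : ‖unt d‖ = 1 := by
  unfold unt
  rw [norm_smul, norm_inv, norm_norm, inv_mul_cancel₀ (by simpa using hd)]

theorem inner_prj_unt (d y : E3) : inner ℝ (prj d y) (unt d) = 0 := by
  unfold unt
  rw [real_inner_smul_right, inner_prj, mul_zero]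

theorem obl (d : E3) (hd : d ≠ 0) (y : E3) (τ : ℝ) : ∃ σ : ℝ, y + τ • d = prj d y + σ • unt d := by
  refine ⟨(τ + inner ℝ y d / ‖d‖ ^ 2) * ‖d‖, ?_⟩
  have hn : ‖d‖ ≠ 0 := by simpa using hd
  unfold prj unt
  rw [smul_smul, mul_assoc, mul_inv_cancel₀ hn, mul_one, add_smul]
  abel

theorem obl' (d : E3) (y : E3) (τ : ℝ) : ∃ σ : ℝ, y + τ • d = prj d y + σ • d := by
  refine ⟨(τ + inner ℝ y d / ‖d‖ ^ 2), ?_⟩
  unfold prj
  rw [add_smul]
  abel

theorem prj_add_smul (d y : E3) (τ : ℝ) : prj d (y + τ • d) = prj d y := by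
  rw [prj_add, prj_smul, prj_self, smul_zero, add_zero]

theorem prj_hull (d P Q R : E3) :
    prj d '' convexHull ℝ ({P, Q, R} : Set E3) =
      convexHull ℝ ({prj d P, prj d Q, prj d R} : Set E3) := by
  rw [hull_eq_par, hull_eq_par, prj_par, prj_sub, prj_sub]

theorem area_prj_hull (d P Q R : E3) (hd : d ≠ 0) :
    (μHE[2] (convexHull ℝ ({prj d P, prj d Q, prj d R} : Set E3))).toReal =
      |det3 (Q - P) (R - P) d| / (2 * ‖d‖) := by
  rw [area_hull, ENNReal.toReal_ofReal (by positivity), prj_sub, prj_sub, sqrt_gram_prj _ _ _ hd]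
  ring

theorem plane_bounded_lt_top (u : E3) (hu : u ≠ 0) (S : Set E3) (hS : Bornology.IsBounded S) :
    μHE[2] (S ∩ {x | inner ℝ x u = 0}) < ⊤ := by
  have : Fact (Module.finrank ℝ E3 = 2 + 1) := ⟨by simp⟩
  have hW : Module.finrank ℝ (ℝ ∙ u)ᗮ = 2 := Submodule.finrank_orthogonal_span_singleton hu
  have h1 : S ∩ {x | inner ℝ x u = 0} =
      Subtype.val '' ((Subtype.val : (ℝ ∙ u)ᗮ → E3) ⁻¹' S) := by
    ext x
    simp only [Set.mem_inter_iff, Set.mem_ofPred_eq, Set.mem_image, Set.mem_preimage,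
      Subtype.exists, exists_and_right, exists_eq_right, Submodule.mem_orthogonal_singleton_iff_inner_left]
    tauto
  rw [h1, isometry_subtype_coe.euclideanHausdorffMeasure_image]
  have hb : Bornology.IsBounded ((Subtype.val : (ℝ ∙ u)ᗮ → E3) ⁻¹' S) :=
    isometry_subtype_coe.antilipschitz.isBounded_preimage hS
  have := MeasureTheory.isAddHaarMeasure_euclideanHausdorffMeasure (E := (ℝ ∙ u)ᗮ)
  rw [hW] at this
  exact hb.measure_lt_top

theorem plane_closed (u : E3) : IsClosed {x : E3 | inner ℝ x u = 0} :=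
  isClosed_eq (by fun_prop) continuous_const

/-- A compact planar set has a bounded relatively open neighbourhood of almost the same area. -/
theorem open_enlarge (u : E3) (hu : u ≠ 0) (T : Set E3) (hT : IsCompact T)
    (hTu : ∀ x ∈ T, inner ℝ x u = 0) (ε : ℝ) (hε : 0 < ε) :
    ∃ B : Set E3, T ⊆ B ∧ Bornology.IsBounded B ∧
      (∃ O : Set E3, IsOpen O ∧ B = O ∩ {x | inner ℝ x u = 0}) ∧
      (μHE[2] B).toReal ≤ (μHE[2] T).toReal + ε := by
  set P : Set E3 := {x | inner ℝ x u = 0} with hP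
  have hPm : MeasurableSet P := (plane_closed u).measurableSet
  set μ : Measure E3 := (μHE[2] : Measure E3).restrict P with hμ
  have hfin : ∀ S : Set E3, Bornology.IsBounded S → μ S ≠ ⊤ := by
    intro S hS
    rw [hμ, Measure.restrict_apply' hPm]
    exact (plane_bounded_lt_top u hu S hS).ne
  have hlim := tendsto_measure_cthickening_of_isClosed (μ := μ) (s := T)
    ⟨1, one_pos, hfin _ hT.isBounded.cthickening⟩ hT.isClosed
  have hTP : T ∩ P = T := Set.inter_eq_left.mpr hTu
  have hμT : μ T = μHE[2] T := by rw [hμ, Measure.restrict_apply' hPm, hTP]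
  have hlt : μ T < μ T + ENNReal.ofReal ε :=
    ENNReal.lt_add_right (hfin _ hT.isBounded) (by simpa using hε)
  have hev := (hlim.eventually (gt_mem_nhds hlt)).filter_mono
    (nhdsWithin_le_nhds (s := Set.Ioi (0 : ℝ)))
  obtain ⟨r, hr, hr0⟩ := (hev.and self_mem_nhdsWithin).exists
  refine ⟨Metric.thickening r T ∩ P, ?_, ?_, ⟨_, Metric.isOpen_thickening, rfl⟩, ?_⟩
  · intro x hx
    exact ⟨Metric.self_subset_thickening hr0 T hx, hTu x hx⟩
  · exact hT.isBounded.thickening.subset Set.inter_subset_left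
  · rw [← Measure.restrict_apply' hPm, ← hμ, ← hμT]
    have h1 : μ (Metric.thickening r T) ≤ μ T + ENNReal.ofReal ε :=
      (measure_mono (Metric.thickening_subset_cthickening r T)).trans hr.le
    have h2 := ENNReal.toReal_mono (by simp [hfin _ hT.isBounded]) h1
    rwa [ENNReal.toReal_add (hfin _ hT.isBounded) (by simp), ENNReal.toReal_ofReal hε.le] at h2

theorem par_compact (c a b : E3) (S : Set (ℝ × ℝ)) (hS : IsCompact S) :
    IsCompact (par c a b S) := by
  have : par c a b S = (fun z : ℝ × ℝ => c + z.1 • a + z.2 • b) '' S := by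
    ext x; simp [par, eq_comm]
  rw [this]
  exact hS.image (by fun_prop)

theorem pgram_compact (c a b : E3) : IsCompact (pgram c a b) := by
  rw [pgram_eq]
  exact par_compact _ _ _ _ (isCompact_Icc.prod isCompact_Icc)

/-- `μHE[2]` is a positive multiple of `μH[2]`. -/
theorem muHE_eq : ∃ κ : ℝ, 0 < κ ∧ ∀ S : Set E3,
    (μH[(2 : ℝ)] S).toReal = κ * (μHE[2] S).toReal := by
  have h0 := Measure.addHaarScalarFactor_volume_hausdorffMeasure_ne_zero 2
  set c := Measure.addHaarScalarFactor (volume : Measure E2) μH[(2 : ℕ)] with hc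
  have hpos : (0 : ℝ) < c := by positivity
  refine ⟨(c : ℝ)⁻¹, by positivity, fun S => ?_⟩
  rw [Measure.euclideanHausdorffMeasure_def, ← hc, Measure.smul_apply]
  simp only [Nat.cast_ofNat, ENNReal.smul_def, smul_eq_mul, ENNReal.toReal_mul, ENNReal.coe_toReal]
  field_simp

end Crest.Agent.H0211
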