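import Crest.Agent.H0211.Cover

set_option autoImplicit false
open MeasureTheory
open scoped ENNReal Pointwise

namespace Crest.Agent.H0211

theorem area_sim (c : E3) (κ : ℝ) (hκ : 0 < κ) (L : E3 ≃ₗᵢ[ℝ] E3) (S : Set E3) :
    (μHE[2] ((fun y => c + κ • L y) '' S)).toReal = κ ^ 2 * (μHE[2] S).toReal := by
  have e : (fun y => c + κ • L y) '' S = (fun y => c + y) '' (κ • (L '' S)) := by
    ext x
    simp only [Set.mem_image, Set.mem_smul_set, exists_exists_and_eq_and]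
  rw [e, (isometry_add_left c).euclideanHausdorffMeasure_image,
    Measure.euclideanHausdorffMeasure_smul₀ 2 hκ.ne', L.isometry.euclideanHausdorffMeasure_image]
  simp [ENNReal.smul_def, abs_of_pos hκ]

theorem prj_sim (o : E3) (κ : ℝ) (L : E3 ≃ₗᵢ[ℝ] E3) (v x : E3) :
    prj (L v) (o + κ • L x) = prj (L v) o + κ • L (prj v x) := by
  rw [prj_add, prj_smul]
  congr 2
  simp [prj]

theorem exists_frame (w : Fin 4 → E3) (ℓ : ℝ) (hℓ : 0 < ℓ)
    (hw : ∀ i j, i ≠ j → dist (w i) (w j) = ℓ) :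
    ∃ (o : E3) (L : E3 ≃ₗᵢ[ℝ] E3),
      convexHull ℝ (Set.range w) = (fun y => o + (ℓ / 2) • L y) '' K0 := by
  obtain ⟨a, ha⟩ : ∃ a, a = w 1 - w 0 := ⟨_, rfl⟩
  obtain ⟨b, hb⟩ : ∃ b, b = w 2 - w 0 := ⟨_, rfl⟩
  obtain ⟨c, hc⟩ : ∃ c, c = w 3 - w 0 := ⟨_, rfl⟩
  have hd : ∀ i j, i ≠ j → inner ℝ (w i - w j) (w i - w j) = ℓ ^ 2 := by
    intro i j hij
    rw [real_inner_self_eq_norm_sq, ← dist_eq_norm, hw i j hij]
  have haa : inner ℝ a a = ℓ ^ 2 := by rw [ha]; exact hd _ _ (by decide)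
  have hbb : inner ℝ b b = ℓ ^ 2 := by rw [hb]; exact hd _ _ (by decide)
  have hcc : inner ℝ c c = ℓ ^ 2 := by rw [hc]; exact hd _ _ (by decide)
  have hab : inner ℝ (a - b) (a - b) = ℓ ^ 2 := by
    rw [ha, hb, sub_sub_sub_cancel_right]; exact hd _ _ (by decide)
  have hac : inner ℝ (a - c) (a - c) = ℓ ^ 2 := by
    rw [ha, hc, sub_sub_sub_cancel_right]; exact hd _ _ (by decide)
  have hbc : inner ℝ (b - c) (b - c) = ℓ ^ 2 := by
    rw [hb, hc, sub_sub_sub_cancel_right]; exact hd _ _ (by decide)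
  have hr2 : Real.sqrt 2 ^ 2 = 2 := Real.sq_sqrt (by norm_num)
  have hr : 0 < Real.sqrt 2 := by positivity
  let f : Fin 3 → E3 := ![(-ℓ⁻¹) • a, ℓ⁻¹ • (b - c), (Real.sqrt 2 / (2 * ℓ)) • (b + c - a)]
  have hf : Orthonormal ℝ f := by
    rw [orthonormal_iff_ite]
    simp only [inner3, PiLp.sub_apply] at haa hbb hcc hab hac hbc
    intro i j
    fin_cases i <;> fin_cases j <;>
      simp only [f, inner3, Fin.zero_eta, Fin.mk_one, Fin.reduceFinMk, Matrix.cons_val,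
        PiLp.smul_apply, PiLp.sub_apply, PiLp.add_apply, smul_eq_mul, Fin.isValue, Fin.reduceEq,
        if_true, if_false] <;> field_simp
    · linear_combination haa
    · linear_combination (1 / 2 : ℝ) * hab - (1 / 2 : ℝ) * hac - (1 / 2 : ℝ) * hbb + (1 / 2 : ℝ) * hcc
    · linear_combination (Real.sqrt 2 / 2 : ℝ) * (hab + hac - hbb - hcc)
    · linear_combination (1 / 2 : ℝ) * hab - (1 / 2 : ℝ) * hac - (1 / 2 : ℝ) * hbb + (1 / 2 : ℝ) * hcc
    · linear_combination hbc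
    · linear_combination (Real.sqrt 2 / 2 : ℝ) * (hbb - hcc + hab - hac)
    · linear_combination (Real.sqrt 2 / 2 : ℝ) * (hab + hac - hbb - hcc)
    · linear_combination (Real.sqrt 2 / 2 : ℝ) * (hbb - hcc + hab - hac)
    · linear_combination ((b 0 + c 0 - a 0) ^ 2 + (b 1 + c 1 - a 1) ^ 2 + (b 2 + c 2 - a 2) ^ 2) * hr2
        + 2 * (-haa + hbb + hcc - hbc + hab + hac)
  let B : OrthonormalBasis (Fin 3) ℝ E3 :=
    (basisOfOrthonormalOfCardEqFinrank hf (by simp)).toOrthonormalBasis (by simpa using hf)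
  have hB : ∀ i, B i = f i := fun i => by simp [B]
  have hL : ∀ x : E3, B.repr.symm x = x 0 • f 0 + x 1 • f 1 + x 2 • f 2 := by
    intro x
    rw [← B.sum_repr_symm, Fin.sum_univ_three, hB, hB, hB]
  refine ⟨w 0 + (1 / 2 : ℝ) • a, B.repr.symm, ?_⟩
  let Φ : E3 →ᵃ[ℝ] E3 := AffineMap.const ℝ E3 (w 0 + (1 / 2 : ℝ) • a) +
    ((ℓ / 2) • B.repr.symm.toLinearEquiv.toLinearMap).toAffineMap
  have hΦ : (fun y => w 0 + (1 / 2 : ℝ) • a + (ℓ / 2) • B.repr.symm y) = Φ := by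
    ext1 y; simp [Φ]
  rw [hΦ, K0, AffineMap.image_convexHull, ← hΦ]
  congr 1
  have e0 : w 0 + (1 / 2 : ℝ) • a + (ℓ / 2) • B.repr.symm !₂[1, 0, 0] = w 0 := by
    rw [hL]; ext i; simp [f]; field_simp; ring
  have e1 : w 0 + (1 / 2 : ℝ) • a + (ℓ / 2) • B.repr.symm !₂[-1, 0, 0] = w 1 := by
    have : w 1 = w 0 + a := by rw [ha]; abel
    rw [hL, this]; ext i; simp [f]; field_simp; ring
  have e2 : w 0 + (1 / 2 : ℝ) • a + (ℓ / 2) • B.repr.symm !₂[0, 1, Real.sqrt 2] = w 2 := by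
    have : w 2 = w 0 + b := by rw [hb]; abel
    rw [hL, this]; ext i; simp [f]; field_simp
    linear_combination (b i + c i - a i) * hr2
  have e3 : w 0 + (1 / 2 : ℝ) • a + (ℓ / 2) • B.repr.symm !₂[0, -1, Real.sqrt 2] = w 3 := by
    have : w 3 = w 0 + c := by rw [hc]; abel
    rw [hL, this]; ext i; simp [f]; field_simp
    linear_combination (b i + c i - a i) * hr2
  simp only [Set.image_insert_eq, Set.image_singleton, e0, e1, e2, e3]
  ext x
  simp only [Set.mem_range, Set.mem_insert_iff, Set.mem_singleton_iff]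
  constructor
  · rintro ⟨i, rfl⟩
    fin_cases i <;> simp
  · rintro (rfl | rfl | rfl | rfl) <;> exact ⟨_, rfl⟩

theorem gram_smul (a b : E3) (s t : ℝ) : gram (s • a) (t • b) = (s * t) ^ 2 * gram a b := by
  unfold gram
  rw [norm_smul, norm_smul, real_inner_smul_left, real_inner_smul_right, mul_pow, mul_pow,
    Real.norm_eq_abs, Real.norm_eq_abs, sq_abs, sq_abs]
  ring

theorem gram_isom (L : E3 ≃ₗᵢ[ℝ] E3) (a b : E3) : gram (L a) (L b) = gram a b := by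
  simp [gram]

theorem stair (k : ℕ) (hk : 0 < k) (s t : ℝ) (hs : 0 ≤ s) (ht : 0 ≤ t) (hst : s + t ≤ 1) :
    ∃ j : Fin k, ∃ x ∈ Set.Icc (0 : ℝ) 1, ∃ y ∈ Set.Icc (0 : ℝ) 1,
      s = (j + x) / k ∧ t = y * (1 - j / k) := by
  have hk' : (0 : ℝ) < k := by exact_mod_cast hk
  obtain ⟨j, h1, h2⟩ := disc_ivt (fun j => s * k - j) k hk (by simp; positivity)
    (by have : s * k ≤ 1 * k := mul_le_mul_of_nonneg_right (by linarith) hk'.le
        linarith)
  simp only [Nat.cast_add, Nat.cast_one] at h1 h2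
  have hj : ((j : ℕ) : ℝ) < k := by exact_mod_cast j.2
  have h3 : (j : ℝ) / k ≤ s := by rw [div_le_iff₀ hk']; linarith
  have h4 : 0 < 1 - (j : ℝ) / k := by rw [sub_pos, div_lt_one hk']; exact hj
  refine ⟨j, s * k - j, ⟨h1, by linarith⟩, t / (1 - j / k), ⟨by positivity, ?_⟩, ?_, ?_⟩
  · rw [div_le_one h4]; linarith
  · field_simp; ring
  · rw [div_mul_cancel₀ _ h4.ne']

theorem stair_sum (k : ℕ) (hk : 0 < k) :
    ∑ j : Fin k, (1 / (k : ℝ) * (1 - j / k)) = (1 + 1 / k) / 2 := by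
  have hk' : (0 : ℝ) < k := by exact_mod_cast hk
  have h : ∀ n : ℕ, ∑ j ∈ Finset.range n, (j : ℝ) = n * (n - 1) / 2 := by
    intro n
    induction n with
    | zero => simp
    | succ n ih => rw [Finset.sum_range_succ, ih]; push_cast; ring
  rw [← Finset.mul_sum, Finset.sum_sub_distrib, ← Finset.sum_div,
    Fin.sum_univ_eq_sum_range (fun j => (j : ℝ)), h]
  simp
  field_simp
  ring

/-- Parallelogram cover of a general regular tetrahedron. -/
theorem gen_cover (w : Fin 4 → E3) (ℓ : ℝ) (hℓ : 0 < ℓ)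
    (hw : ∀ i j, i ≠ j → dist (w i) (w j) = ℓ) :
    ∃ m : ℝ, 0 < m ∧ (∀ v : E3, ‖v‖ = 1 →
        m ≤ (μHE[2] (prj v '' convexHull ℝ (Set.range w))).toReal) ∧
      ∃ (k : ℕ) (u c a b : Fin k → E3), (∀ i, ‖u i‖ = 1) ∧
        (∀ i, inner ℝ (c i) (u i) = 0 ∧ inner ℝ (a i) (u i) = 0 ∧ inner ℝ (b i) (u i) = 0) ∧
        (∀ x ∈ convexHull ℝ (Set.range w), ∃ i, ∃ y ∈ pgram (c i) (a i) (b i), ∃ τ : ℝ,
          x = y + τ • u i) ∧
        ∑ i, (μHE[2] (pgram (c i) (a i) (b i))).toReal < m / 2 := by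
  obtain ⟨o, L, hK⟩ := exists_frame w ℓ hℓ hw
  obtain ⟨κ, hκ⟩ : ∃ κ, κ = ℓ / 2 := ⟨_, rfl⟩
  have hκ0 : 0 < κ := by rw [hκ]; positivity
  rw [← hκ] at hK
  refine ⟨κ ^ 2 * Real.sqrt 2, by positivity, fun v hv => ?_, ?_⟩
  · obtain ⟨v', rfl⟩ := L.surjective v
    have e : prj (L v') '' ((fun y => o + κ • L y) '' K0) =
        (fun y => prj (L v') o + κ • L y) '' (prj v' '' K0) := by
      simp only [Set.image_image, prj_sim]
    rw [hK, e, area_sim _ _ hκ0]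
    exact mul_le_mul_of_nonneg_left (proj_lower_real v' (by simpa using hv)) (by positivity)
  obtain ⟨u, p, q, r, h1, h2, h3, h4⟩ := cover_fin (1 / 2000) (by norm_num) le_rfl
  generalize 2 * ⌈2 / (1 / 2000 : ℝ) ^ 2⌉₊ = N at u p q r h1 h2 h3 h4
  obtain ⟨k, hk⟩ : ∃ k : ℕ, k = 10 ^ 10 := ⟨_, rfl⟩
  have hk0 : 0 < k := by rw [hk]; positivity
  have hk' : (0 : ℝ) < k := by exact_mod_cast hk0
  let e : Fin (N * k) ≃ Fin N × Fin k := finProdFinEquiv.symm
  let u' : Fin N × Fin k → E3 := fun z => L (u z.1)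
  let c' : Fin N × Fin k → E3 := fun z =>
    prj (L (u z.1)) o + κ • L (p z.1 + ((z.2 : ℝ) / k) • (q z.1 - p z.1))
  let a' : Fin N × Fin k → E3 := fun z => (κ * (1 / k)) • L (q z.1 - p z.1)
  let b' : Fin N × Fin k → E3 := fun z => (κ * (1 - (z.2 : ℝ) / k)) • L (r z.1 - p z.1)
  refine ⟨N * k, u' ∘ e, c' ∘ e, a' ∘ e, b' ∘ e, fun i => by simpa [u'] using h1 _,
    fun i => ?_, ?_, ?_⟩
  · obtain ⟨g1, g2, g3⟩ := h2 (e i).1
    simp only [Function.comp, u', c', a', b', inner_add_left, real_inner_smul_left,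
      LinearIsometryEquiv.inner_map_map, inner_sub_left, g1, g2, g3, inner_prj]
    simp
  · intro x hx
    rw [hK] at hx
    obtain ⟨x, hx, rfl⟩ := hx
    obtain ⟨i, y, hy, τ, rfl⟩ := Set.mem_iUnion.mp (h3 hx)
    rw [hull_eq_par] at hy
    obtain ⟨z, hz, rfl⟩ := hy
    obtain ⟨j, α, hα, β, hβ, e1, e2⟩ := stair k hk0 z.1 z.2 hz.1 hz.2.1 hz.2.2
    refine ⟨e.symm (i, j), _, ⟨α, hα, β, hβ, rfl⟩,
      κ * τ + inner ℝ o (L (u i)) / ‖L (u i)‖ ^ 2, ?_⟩
    simp only [Function.comp, Equiv.apply_symm_apply, u', c', a', b', prj, map_add, map_smul, e1, e2]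
    module
  · have hs := e.sum_comp (fun z => (μHE[2] (pgram (c' z) (a' z) (b' z))).toReal)
    simp only [Function.comp]
    rw [hs, Fintype.sum_prod_type]
    have hA : ∀ (i : Fin N) (j : Fin k), (μHE[2] (pgram (c' (i, j)) (a' (i, j)) (b' (i, j)))).toReal
        = 2 * κ ^ 2 * (μHE[2] (convexHull ℝ ({p i, q i, r i} : Set E3))).toReal *
          (1 / (k : ℝ) * (1 - j / k)) := by
      intro i j
      have hj : ((j : ℕ) : ℝ) < k := by exact_mod_cast j.2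
      have h4 : 0 < 1 - (j : ℝ) / k := by rw [sub_pos, div_lt_one hk']; exact hj
      rw [area_pgram, area_hull, ENNReal.toReal_ofReal (by positivity),
        ENNReal.toReal_ofReal (by positivity)]
      simp only [a', b', gram_smul, gram_isom]
      rw [Real.sqrt_mul (sq_nonneg _), Real.sqrt_sq (by positivity)]
      ring
    simp only [hA, ← Finset.mul_sum, stair_sum k hk0]
    rw [← Finset.sum_mul, ← Finset.mul_sum, h4, hk]
    have : 0 < κ ^ 2 * Real.sqrt 2 := by positivity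
    norm_num
    nlinarith

end Crest.Agent.H0211
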