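import Crest.Agent.H0211.Cyl

set_option autoImplicit false
open MeasureTheory
open scoped ENNReal

namespace Crest.Agent.H0211

theorem par_T0_subset {K : Set E3} (hK : Convex ℝ K) {P Q R : E3} (hP : P ∈ K) (hQ : Q ∈ K)
    (hR : R ∈ K) : par P (Q - P) (R - P) T0 ⊆ K := by
  rw [← hull_eq_par]
  apply convexHull_min _ hK
  intro x hx
  simp only [Set.mem_insert_iff, Set.mem_singleton_iff] at hx
  rcases hx with rfl | rfl | rfl <;> assumption

theorem T0_compact : IsCompact T0 := by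
  refine (isCompact_Icc.prod isCompact_Icc : IsCompact Q0).of_isClosed_subset T0_closed ?_
  rintro z ⟨h1, h2, h3⟩
  exact ⟨⟨h1, by linarith⟩, ⟨h2, by linarith⟩⟩

theorem det3_prj (a v y : E3) : det3 (prj v a) (prj v y) v = det3 a y v := by
  simp only [prj, det3, PiLp.sub_apply, PiLp.smul_apply, smul_eq_mul]
  ring

theorem one_tri {K : Set E3} (hK : Convex ℝ K) {P Q R : E3} (hP : P ∈ K) (hQ : Q ∈ K)
    (hR : R ∈ K) (v : E3) (hv : ‖v‖ = 1) :
    ENNReal.ofReal (|det3 (Q - P) (R - P) v| / 2) ≤ μHE[2] (prj v '' K) := by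
  have hv0 : v ≠ 0 := by rintro rfl; simp at hv
  have h := measure_mono (μ := (μHE[2] : Measure E3))
    (Set.image_mono (f := prj v) (par_T0_subset hK hP hQ hR))
  rw [prj_par, area_T0, sqrt_gram_prj _ _ _ hv0, hv, div_one] at h
  exact h

theorem two_tri {K : Set E3} (hK : Convex ℝ K) {P Q R S : E3} (hP : P ∈ K) (hQ : Q ∈ K)
    (hR : R ∈ K) (hS : S ∈ K) (v : E3) (hv : ‖v‖ = 1) :
    ENNReal.ofReal (|det3 (Q - P) (R - S) v| / 2) ≤ μHE[2] (prj v '' K) := by
  have hv0 : v ≠ 0 := by rintro rfl; simp at hv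
  set d1 := det3 (Q - P) (R - P) v with hd1
  set d2 := det3 (Q - P) (S - P) v with hd2
  have hd : det3 (Q - P) (R - S) v = d1 - d2 := by
    simp only [hd1, hd2, det3, PiLp.sub_apply]; ring
  rw [hd]
  by_cases hs : 0 ≤ d1 * d2
  · have h1 := one_tri hK hP hQ hR v hv
    have h2 := one_tri hK hP hQ hS v hv
    rw [← hd1] at h1
    rw [← hd2] at h2
    rcases le_total |d1| |d2| with h | h
    · refine le_trans (ENNReal.ofReal_le_ofReal ?_) h2
      have : |d1 - d2| ≤ |d2| := by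
        rw [← sq_le_sq] at h ⊢
        rcases le_total 0 d1 with a | a <;> rcases le_total 0 d2 with b | b <;> nlinarith
      linarith
    · refine le_trans (ENNReal.ofReal_le_ofReal ?_) h1
      have : |d1 - d2| ≤ |d1| := by
        rw [← sq_le_sq] at h ⊢
        rcases le_total 0 d1 with a | a <;> rcases le_total 0 d2 with b | b <;> nlinarith
      linarith
  · push Not at hs
    set A := par (prj v P) (prj v (Q - P)) (prj v (R - P)) T0 with hA
    set B := par (prj v P) (prj v (Q - P)) (prj v (S - P)) T1 with hB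
    have hAK : A ⊆ prj v '' K := by
      rw [hA, ← prj_par]; exact Set.image_mono (par_T0_subset hK hP hQ hR)
    have hBK : B ⊆ prj v '' K := by
      rw [hB, ← prj_par]
      refine Set.image_mono (Set.Subset.trans ?_ (par_T0_subset hK hP hQ hS))
      rintro _ ⟨z, hz, rfl⟩
      exact ⟨z, ⟨hz.1, hz.2.1.le, hz.2.2⟩, rfl⟩
    have hdis : Disjoint B A := by
      rw [Set.disjoint_left]
      rintro _ ⟨z, hz, rfl⟩ ⟨z', hz', h⟩
      have h1 : z.2 * d2 = z'.2 * d1 := by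
        rw [hd1, hd2, ← det3_prj _ v (R - P), ← det3_prj _ v (S - P)]
        have h0 := congrFun (congrArg WithLp.ofLp h) 0
        have h1 := congrFun (congrArg WithLp.ofLp h) 1
        have h2 := congrFun (congrArg WithLp.ofLp h) 2
        generalize prj v P = p at *
        generalize prj v (Q - P) = q at *
        generalize prj v (R - P) = r at *
        generalize prj v (S - P) = s at *
        simp only [PiLp.add_apply, PiLp.smul_apply, smul_eq_mul] at h0 h1 h2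
        simp only [det3]
        linear_combination (q 2 * v 1 - q 1 * v 2) * h0 + (q 0 * v 2 - q 2 * v 0) * h1 +
          (q 1 * v 0 - q 0 * v 1) * h2
      have h2 : z.2 * (d1 * d2) = z'.2 * d1 ^ 2 := by linear_combination d1 * h1
      have h3 : z.2 * (d1 * d2) < 0 := mul_neg_of_pos_of_neg hz.2.1 hs
      have h4 : 0 ≤ z'.2 * d1 ^ 2 := mul_nonneg hz'.2.1 (sq_nonneg _)
      linarith
    have hAm : MeasurableSet A := (par_compact _ _ _ _ T0_compact).measurableSet
    have h := measure_mono (μ := (μHE[2] : Measure E3)) (Set.union_subset hBK hAK)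
    rw [measure_union hdis hAm, hA, hB, area_T0, area_T1, sqrt_gram_prj _ _ _ hv0,
      sqrt_gram_prj _ _ _ hv0, hv, div_one, div_one, ← hd1, ← hd2,
      ← ENNReal.ofReal_add (by positivity) (by positivity)] at h
    refine le_trans (ENNReal.ofReal_le_ofReal ?_) h
    have := abs_sub d1 d2
    linarith

/-- The standard tetrahedron. -/
noncomputable def K0 : Set E3 :=
  convexHull ℝ {!₂[1, 0, 0], !₂[-1, 0, 0], !₂[0, 1, Real.sqrt 2], !₂[0, -1, Real.sqrt 2]}

theorem prj_lt_top (K : Set E3) (hK : Bornology.IsBounded K) (v : E3) (hv : v ≠ 0) :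
    μHE[2] (prj v '' K) < ⊤ := by
  have hb : Bornology.IsBounded (prj v '' K) := by
    obtain ⟨C, hC⟩ := hK.exists_norm_le
    have hc : IsCompact (prj v '' Metric.closedBall 0 C) :=
      (isCompact_closedBall 0 C).image (by unfold prj; fun_prop)
    refine hc.isBounded.subset (Set.image_mono ?_)
    intro x hx
    simpa using hC x hx
  refine lt_of_le_of_lt (measure_mono ?_) (plane_bounded_lt_top v hv _ hb)
  rintro _ ⟨y, hy, rfl⟩
  exact ⟨⟨y, hy, rfl⟩, inner_prj v y⟩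

theorem K0_bounded : Bornology.IsBounded K0 := by
  unfold K0
  rw [isBounded_convexHull]
  exact (Set.toFinite _).isBounded

theorem aux_ineq (p q s a : ℝ) (h : p ^ 2 + q ^ 2 + s ^ 2 = 4) (hp : |p| ≤ a) (hq : |q| ≤ a)
    (hs : |s| ≤ a) (h1 : |p + q + s| ≤ 2 * a) (h2 : |p - q - s| ≤ 2 * a)
    (h3 : |-p + q - s| ≤ 2 * a) (h4 : |-p - q + s| ≤ 2 * a) : Real.sqrt 2 ≤ a := by
  have ha : 0 ≤ a := (abs_nonneg _).trans hp
  have hsum : |p| + |q| + |s| ≤ 2 * a := by
    rw [abs_le] at h1 h2 h3 h4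
    rcases abs_cases p with ⟨e1, _⟩ | ⟨e1, _⟩ <;> rcases abs_cases q with ⟨e2, _⟩ | ⟨e2, _⟩ <;>
      rcases abs_cases s with ⟨e3, _⟩ | ⟨e3, _⟩ <;> rw [e1, e2, e3] <;> linarith
  apply Real.sqrt_le_iff.mpr ⟨ha, ?_⟩
  have e1 := sq_abs p
  have e2 := sq_abs q
  have e3 := sq_abs s
  nlinarith [abs_nonneg p, abs_nonneg q, abs_nonneg s, mul_le_mul_of_nonneg_left hp (abs_nonneg p),
    mul_le_mul_of_nonneg_left hq (abs_nonneg q), mul_le_mul_of_nonneg_left hs (abs_nonneg s)]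

theorem proj_lower_real (v : E3) (hv : ‖v‖ = 1) :
    Real.sqrt 2 ≤ (μHE[2] (prj v '' K0)).toReal := by
  have hv0 : v ≠ 0 := by rintro rfl; simp at hv
  have hfin := (prj_lt_top K0 K0_bounded v hv0).ne
  have hK : Convex ℝ K0 := convex_convexHull _ _
  have hA : (!₂[1, 0, 0] : E3) ∈ K0 := subset_convexHull _ _ (by simp)
  have hB : (!₂[-1, 0, 0] : E3) ∈ K0 := subset_convexHull _ _ (by simp)
  have hC : (!₂[0, 1, Real.sqrt 2] : E3) ∈ K0 := subset_convexHull _ _ (by simp)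
  have hD : (!₂[0, -1, Real.sqrt 2] : E3) ∈ K0 := subset_convexHull _ _ (by simp)
  have key : ∀ {P Q R S : E3}, P ∈ K0 → Q ∈ K0 → R ∈ K0 → S ∈ K0 →
      |det3 (Q - P) (R - S) v| ≤ 2 * (μHE[2] (prj v '' K0)).toReal := by
    intro P Q R S hP hQ hR hS
    have := (ENNReal.ofReal_le_iff_le_toReal hfin).mp (two_tri hK hP hQ hR hS v hv)
    linarith
  set a := (μHE[2] (prj v '' K0)).toReal
  have hn := normsq3 v
  rw [hv] at hn
  have hr : Real.sqrt 2 ^ 2 = 2 := Real.sq_sqrt (by norm_num)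
  set r := Real.sqrt 2 with hrdef
  have k1 := key hA hB hC hD
  have k2 := key hA hC hB hD
  have k3 := key hA hD hB hC
  have k4 := key hA hB hC hA
  have k5 := key hA hB hD hA
  have k6 := key hC hD hA hC
  have k7 := key hC hD hB hC
  simp only [det3, PiLp.sub_apply, Matrix.cons_val, abs_le] at k1 k2 k3 k4 k5 k6 k7
  apply aux_ineq (2 * v 2) (r * (v 0 + v 1)) (r * (v 1 - v 0)) a
  · linear_combination (-4) * hn + (2 * v 0 ^ 2 + 2 * v 1 ^ 2) * hr
  all_goals (rw [abs_le]; constructor <;> linarith [k1.1, k1.2, k2.1, k2.2, k3.1, k3.2, k4.1, k4.2,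
    k5.1, k5.2, k6.1, k6.2, k7.1, k7.2])

theorem proj_lower (v : E3) (hv : ‖v‖ = 1) :
    ENNReal.ofReal (Real.sqrt 2) ≤ μHE[2] (prj v '' K0) := by
  have hv0 : v ≠ 0 := by rintro rfl; simp at hv
  exact (ENNReal.ofReal_le_iff_le_toReal (prj_lt_top K0 K0_bounded v hv0).ne).mpr
    (proj_lower_real v hv)

theorem mem_K0 {x : E3} (hx : x ∈ K0) :
    |x 0| ≤ 1 - x 2 / Real.sqrt 2 ∧ |x 1| ≤ x 2 / Real.sqrt 2 := by
  have hr : Real.sqrt 2 ≠ 0 := by positivity
  have hc : Convex ℝ {x : E3 | |x 0| ≤ 1 - x 2 / Real.sqrt 2 ∧ |x 1| ≤ x 2 / Real.sqrt 2} := by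
    rintro x ⟨hx1, hx2⟩ y ⟨hy1, hy2⟩ s t hs ht hst
    simp only [Set.mem_ofPred_eq, PiLp.add_apply, PiLp.smul_apply, smul_eq_mul]
    rw [abs_le] at hx1 hx2 hy1 hy2
    have e : (s * x 2 + t * y 2) / Real.sqrt 2 =
      s * (x 2 / Real.sqrt 2) + t * (y 2 / Real.sqrt 2) := by ring
    rw [e, abs_le, abs_le]
    generalize x 2 / Real.sqrt 2 = a at *
    generalize y 2 / Real.sqrt 2 = b at *
    refine ⟨⟨?_, ?_⟩, ⟨?_, ?_⟩⟩ <;>
      nlinarith [mul_le_mul_of_nonneg_left hx1.1 hs, mul_le_mul_of_nonneg_left hx1.2 hs,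
        mul_le_mul_of_nonneg_left hx2.1 hs, mul_le_mul_of_nonneg_left hx2.2 hs,
        mul_le_mul_of_nonneg_left hy1.1 ht, mul_le_mul_of_nonneg_left hy1.2 ht,
        mul_le_mul_of_nonneg_left hy2.1 ht, mul_le_mul_of_nonneg_left hy2.2 ht]
  refine convexHull_min ?_ hc hx
  intro y hy
  simp only [Set.mem_insert_iff, Set.mem_singleton_iff] at hy
  rcases hy with rfl | rfl | rfl | rfl <;> simp

theorem proj_eq : ‖(!₂[1, 0, 0] : E3)‖ = 1 ∧
    μHE[2] (prj !₂[1, 0, 0] '' K0) = ENNReal.ofReal (Real.sqrt 2) := by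
  have hv : ‖(!₂[1, 0, 0] : E3)‖ = 1 := by
    have := normsq3 (!₂[1, 0, 0] : E3)
    simp only [Matrix.cons_val] at this
    nlinarith [norm_nonneg (!₂[1, 0, 0] : E3)]
  refine ⟨hv, le_antisymm ?_ (proj_lower _ hv)⟩
  have hr : 0 < Real.sqrt 2 := by positivity
  have hr2 : Real.sqrt 2 ^ 2 = 2 := Real.sq_sqrt (by norm_num)
  have hsub : prj !₂[1, 0, 0] '' K0 ⊆
      par 0 !₂[0, 1, Real.sqrt 2] !₂[0, -1, Real.sqrt 2] T0 := by
    rintro _ ⟨x, hx, rfl⟩
    obtain ⟨h1, h2⟩ := mem_K0 hx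
    rw [abs_le] at h1 h2
    refine ⟨((x 2 / Real.sqrt 2 + x 1) / 2, (x 2 / Real.sqrt 2 - x 1) / 2),
      ⟨by linarith, by linarith, by linarith⟩, ?_⟩
    rw [prj_unit _ _ hv, inner3]
    ext i
    fin_cases i
    · simp
    · simp; ring
    · simp; field_simp; ring
  refine (measure_mono hsub).trans (le_of_eq ?_)
  rw [area_T0]
  congr 1
  have : gram !₂[0, 1, Real.sqrt 2] !₂[0, -1, Real.sqrt 2] = (2 * Real.sqrt 2) ^ 2 := by
    unfold gram
    rw [normsq3, normsq3, inner3]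
    simp only [Matrix.cons_val]
    linear_combination (0 : ℝ) * hr2
  rw [this, Real.sqrt_sq (by positivity)]
  ring

end Crest.Agent.H0211
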